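import Vale.Agent.P214.TP.Point

/-!
# P214, block TP, part 5: the two-point slab lemma

For points `z` of a class `Cls` which have mass `≥ c` in the window
`{|p (z - z')| ≤ r/2, |q (z - z')| ≤ w}` and whose neighbours in
`{|p (z - z')| < r, |q (z - z')| ≤ w}` have tilt at most `(c/8) tilt z` in total, the tilt of `Cls`
is bounded by `w ∫ |Dψ| √tilt + (w/r) ∫ ψ tilt + r ∫ Lf tilt`.
-/

open Set Filter Topology MeasureTheory Metric
open scoped RealInnerProductSpace

set_option linter.all false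

namespace Vale.Agent.P214.TP

open Vale.Agent.P214.FV

variable {E : Type*} [NormedAddCommGroup E] [InnerProductSpace ℝ E] [FiniteDimensional ℝ E]
variable [MeasurableSpace E] [BorelSpace E]
variable {m : ℕ} {T : Submodule ℝ E} {G : Set E} {h r w : ℝ} {ν : Measure E}
  {P : E → E →L[ℝ] E} {ψ Lf : E → ℝ}

/-! ### measurability and bounds -/

lemma continuous_tilt : Continuous (fun A : E →L[ℝ] E => tilt T A) := by
  unfold tilt
  refine continuous_tr.comp ?_
  fun_prop

lemma aesm_tilt (hC : CylStat m T G h ν P) : AEStronglyMeasurable (fun z => tilt T (P z)) ν :=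
  continuous_tilt.comp_aestronglyMeasurable hC.meas

lemma tilt_ae (hC : CylStat m T G h ν P) : ∀ᵐ z ∂ν, 0 ≤ tilt T (P z) ∧ tilt T (P z) ≤ m := by
  filter_upwards [hC.proj] with z hz
  obtain ⟨S, hS, hP⟩ := hz
  rw [hP]
  refine ⟨FV.tilt_nonneg S T, ?_⟩
  have := FV.tilt_le S T
  rwa [hS] at this

/-- a bounded function times the tilt is integrable -/
lemma integrable_mul_tilt (hC : CylStat m T G h ν P) {g : E → ℝ} (hg : AEStronglyMeasurable g ν)
    {C : ℝ} (hb : ∀ᵐ z ∂ν, ‖g z‖ ≤ C) : Integrable (fun z => g z * tilt T (P z)) ν := by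
  have := hC.fin
  refine Integrable.mono' (integrable_const (C * m)) (hg.mul (aesm_tilt hC)) ?_
  filter_upwards [hb, tilt_ae hC] with z h1 h2
  rw [norm_mul, Real.norm_eq_abs (tilt T (P z)), abs_of_nonneg h2.1]
  have : 0 ≤ C := (norm_nonneg _).trans h1
  exact mul_le_mul h1 h2.2 h2.1 this

lemma integrable_mul_sqrt_tilt (hC : CylStat m T G h ν P) {g : E → ℝ}
    (hg : AEStronglyMeasurable g ν) {C : ℝ} (hb : ∀ᵐ z ∂ν, ‖g z‖ ≤ C) :
    Integrable (fun z => g z * √(tilt T (P z))) ν := by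
  have := hC.fin
  refine Integrable.mono' (integrable_const (C * √m))
    (hg.mul (Real.continuous_sqrt.comp_aestronglyMeasurable (aesm_tilt hC))) ?_
  filter_upwards [hb, tilt_ae hC] with z h1 h2
  rw [norm_mul, Real.norm_eq_abs (√(tilt T (P z))), abs_of_nonneg (Real.sqrt_nonneg _)]
  have : 0 ≤ C := (norm_nonneg _).trans h1
  exact mul_le_mul h1 (Real.sqrt_le_sqrt h2.2) (Real.sqrt_nonneg _) this

lemma isOpen_dom : IsOpen (dom T r) :=
  (isOpen_lt T.starProjection.continuous.norm continuous_const).inter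
    (isOpen_lt (co T).continuous.norm continuous_const)

lemma measurableSet_domq : MeasurableSet {q : E × E | q.1 - q.2 ∈ dom T r} :=
  (isOpen_dom.preimage (continuous_fst.sub continuous_snd)).measurableSet

lemma measurable_win : Measurable (win T r w) :=
  contDiff_ker.continuous.measurable.indicator
    (isClosed_le (co T).continuous.norm continuous_const).measurableSet

/-! ### the Fubini bounds -/

lemma ind_eq (g : E → ℝ) (q : E × E) :
    (dom T r).indicator (fun _ => g q.1) (q.1 - q.2) =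
      {q : E × E | q.1 - q.2 ∈ dom T r}.indicator (fun q => g q.1) q := by
  by_cases hq : q.1 - q.2 ∈ dom T r
  · rw [indicator_of_mem hq, indicator_of_mem (by exact hq)]
  · rw [indicator_of_notMem hq, indicator_of_notMem (by exact hq)]

lemma integrable_ind [IsFiniteMeasure ν] {g : E → ℝ} (hg : Integrable g ν) :
    Integrable (fun q : E × E => (dom T r).indicator (fun _ => g q.1) (q.1 - q.2))
      (ν.prod ν) := by
  simp only [ind_eq]
  exact (hg.comp_fst ν).indicator measurableSet_domq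

lemma integral_ind_le [IsFiniteMeasure ν] {g : E → ℝ} (hg : Integrable g ν)
    (hg0 : ∀ᵐ z ∂ν, 0 ≤ g z) {M : ℝ}
    (hM : ∀ z, g z ≠ 0 → ν.real {z' | z - z' ∈ dom T r} ≤ M) :
    ∫ q : E × E, (dom T r).indicator (fun _ => g q.1) (q.1 - q.2) ∂(ν.prod ν) ≤
      M * ∫ z, g z ∂ν := by
  rw [integral_prod _ (integrable_ind hg), ← integral_const_mul]
  have h1 : ∀ z, ∫ z', (dom T r).indicator (fun _ => g z) (z - z') ∂ν =
      g z * ν.real {z' | z - z' ∈ dom T r} := by
    intro z
    have h2 : (fun z' => (dom T r).indicator (fun _ => g z) (z - z')) =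
        {z' | z - z' ∈ dom T r}.indicator fun _ => g z := by
      funext z'
      by_cases hq : z - z' ∈ dom T r
      · rw [indicator_of_mem hq, indicator_of_mem (by exact hq)]
      · rw [indicator_of_notMem hq, indicator_of_notMem (by exact hq)]
    rw [h2, integral_indicator_const]
    · rw [smul_eq_mul, mul_comm]
    · exact (isOpen_dom.preimage (continuous_const.sub continuous_id)).measurableSet
  have h3 := (integrable_ind (T := T) (r := r) hg).integral_prod_left
  simp only [h1] at h3 ⊢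
  refine integral_mono_ae h3 (hg.const_mul M) ?_
  filter_upwards [hg0] with z hz
  by_cases h0 : g z = 0
  · simp [h0]
  · show g z * ν.real {z' | z - z' ∈ dom T r} ≤ M * g z
    rw [mul_comm M]
    exact mul_le_mul_of_nonneg_left (hM z h0) hz

lemma ind_swap (g : E → ℝ) (q : E × E) :
    (dom T r).indicator (fun _ => g q.2) (q.1 - q.2) =
      (fun q : E × E => (dom T r).indicator (fun _ => g q.1) (q.1 - q.2)) q.swap := by
  simp only [Prod.fst_swap, Prod.snd_swap]
  by_cases hq : q.1 - q.2 ∈ dom T r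
  · rw [indicator_of_mem hq, indicator_of_mem (dom_sub_comm.2 hq)]
  · rw [indicator_of_notMem hq, indicator_of_notMem (fun h => hq (dom_sub_comm.1 h))]

lemma integrable_ind' [IsFiniteMeasure ν] {g : E → ℝ} (hg : Integrable g ν) :
    Integrable (fun q : E × E => (dom T r).indicator (fun _ => g q.2) (q.1 - q.2))
      (ν.prod ν) := by
  simp only [ind_swap]
  exact (integrable_ind hg).swap

lemma integral_ind_le' [IsFiniteMeasure ν] {g : E → ℝ} (hg : Integrable g ν)
    (hg0 : ∀ᵐ z ∂ν, 0 ≤ g z) {M : ℝ}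
    (hM : ∀ z, g z ≠ 0 → ν.real {z' | z - z' ∈ dom T r} ≤ M) :
    ∫ q : E × E, (dom T r).indicator (fun _ => g q.2) (q.1 - q.2) ∂(ν.prod ν) ≤
      M * ∫ z, g z ∂ν := by
  simp only [ind_swap]
  rw [integral_prod_swap (fun q : E × E => (dom T r).indicator (fun _ => g q.1) (q.1 - q.2))]
  exact integral_ind_le hg hg0 hM

/-! ### the main term -/

/-- the main density -/
noncomputable def mn (T : Submodule ℝ E) (r w : ℝ) (ψ : E → ℝ) (P : E → E →L[ℝ] E) (Cls : Set E)
    (q : E × E) : ℝ :=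
  Cls.indicator 1 q.1 * (ψ q.1 * (win T r w (q.1 - q.2) *
    (1 / 6 * tilt T (P q.1) - 1 / 3 * tilt T (P q.2))))

lemma integrable_mn (hC : CylStat m T G h ν P) (hψ : ContDiff ℝ 1 ψ) (hb : BaseCpt T G ψ)
    {Cls : Set E} (hCls : MeasurableSet Cls) :
    Integrable (mn T r w ψ P Cls) (ν.prod ν) := by
  have := hC.fin
  obtain ⟨C, hC0, hCb⟩ := hC.bound hψ.continuous hb
  have hm1 : AEStronglyMeasurable (fun q : E × E => tilt T (P q.1)) (ν.prod ν) :=
    (aesm_tilt hC).comp_fst
  have hm2 : AEStronglyMeasurable (fun q : E × E => tilt T (P q.2)) (ν.prod ν) :=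
    (aesm_tilt hC).comp_snd
  have hm3 : AEStronglyMeasurable (fun q : E × E => Cls.indicator (1 : E → ℝ) q.1) (ν.prod ν) :=
    ((measurable_one.indicator hCls).comp measurable_fst).aestronglyMeasurable
  have hm4 : AEStronglyMeasurable (fun q : E × E => ψ q.1) (ν.prod ν) :=
    (hψ.continuous.comp continuous_fst).aestronglyMeasurable
  have hm5 : AEStronglyMeasurable (fun q : E × E => win T r w (q.1 - q.2)) (ν.prod ν) :=
    (measurable_win.comp (measurable_fst.sub measurable_snd)).aestronglyMeasurable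
  have hmeas : AEStronglyMeasurable (mn T r w ψ P Cls) (ν.prod ν) :=
    hm3.mul (hm4.mul (hm5.mul ((hm1.const_mul _).sub (hm2.const_mul _))))
  refine Integrable.mono' (integrable_const (1 * (C * (1 * (1 / 6 * m + 1 / 3 * m))))) hmeas ?_
  filter_upwards [ae_fst hCb, ae_fst (tilt_ae hC), ae_snd (tilt_ae hC)] with q h1 h2 h3
  unfold mn
  rw [norm_mul, norm_mul, norm_mul]
  have k1 : ‖Cls.indicator (1 : E → ℝ) q.1‖ ≤ 1 := by
    by_cases hq : q.1 ∈ Cls
    · simp [hq]
    · simp [hq]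
  have k2 : ‖win T r w (q.1 - q.2)‖ ≤ 1 := by
    rw [Real.norm_eq_abs, abs_of_nonneg (win_nonneg _)]
    exact win_le_one _
  have k3 : ‖1 / 6 * tilt T (P q.1) - 1 / 3 * tilt T (P q.2)‖ ≤ 1 / 6 * m + 1 / 3 * m := by
    rw [Real.norm_eq_abs, abs_le]
    constructor <;> nlinarith [h2.1, h2.2, h3.1, h3.2]
  gcongr

lemma integrable_win (hC : CylStat m T G h ν P) (z : E) :
    Integrable (fun z' => win T r w (z - z')) ν := by
  have := hC.fin
  refine Integrable.mono' (integrable_const 1)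
    (measurable_win.comp (measurable_const.sub measurable_id)).aestronglyMeasurable ?_
  refine Eventually.of_forall fun z' => ?_
  rw [Real.norm_eq_abs, abs_of_nonneg (win_nonneg _)]
  exact win_le_one _

lemma integrable_win_tilt (hC : CylStat m T G h ν P) (z : E) :
    Integrable (fun z' => win T r w (z - z') * tilt T (P z')) ν := by
  refine integrable_mul_tilt hC
    (measurable_win.comp (measurable_const.sub measurable_id)).aestronglyMeasurable (C := 1) ?_
  refine Eventually.of_forall fun z' => ?_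
  rw [Real.norm_eq_abs, abs_of_nonneg (win_nonneg _)]
  exact win_le_one _

omit [MeasurableSpace E] [BorelSpace E] in
lemma cont_p (T : Submodule ℝ E) (z : E) : Continuous fun z' => ‖T.starProjection (z - z')‖ :=
  (T.starProjection.continuous.comp (continuous_const.sub continuous_id)).norm

omit [MeasurableSpace E] [BorelSpace E] in
lemma cont_q (T : Submodule ℝ E) (z : E) : Continuous fun z' => ‖co T (z - z')‖ :=
  ((co T).continuous.comp (continuous_const.sub continuous_id)).norm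

/-- lower bound for the mass of the window -/
lemma win_mass (hC : CylStat m T G h ν P) (hr : 0 < r) (z : E) :
    9 / 16 * ν.real {z' | ‖T.starProjection (z - z')‖ ≤ r / 2 ∧ ‖co T (z - z')‖ ≤ w} ≤
      ∫ z', win T r w (z - z') ∂ν := by
  have := hC.fin
  set A : Set E := {z' | ‖T.starProjection (z - z')‖ ≤ r / 2 ∧ ‖co T (z - z')‖ ≤ w} with hA
  have hAm : MeasurableSet A :=
    ((isClosed_le (cont_p T z) continuous_const).inter
      (isClosed_le (cont_q T z) continuous_const)).measurableSet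
  have h1 : ∫ z', A.indicator (fun _ => (9 / 16 : ℝ)) z' ∂ν = 9 / 16 * ν.real A := by
    rw [integral_indicator_const _ hAm, smul_eq_mul, mul_comm]
  rw [← h1]
  refine integral_mono_ae ((integrable_const _).indicator hAm) (integrable_win hC z) ?_
  refine Eventually.of_forall fun z' => ?_
  by_cases hz : z' ∈ A
  · simp only
    rw [indicator_of_mem hz]
    unfold win
    rw [indicator_of_mem (by exact hz.2)]
    exact ker_ge hr hz.1
  · simp only
    rw [indicator_of_notMem hz]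
    exact win_nonneg _

/-- upper bound for the tilt in the window -/
lemma win_tilt (hC : CylStat m T G h ν P) (hr : 0 < r) (z : E) :
    ∫ z', win T r w (z - z') * tilt T (P z') ∂ν ≤
      ∫ z' in {z' | ‖T.starProjection (z - z')‖ < r ∧ ‖co T (z - z')‖ ≤ w}, tilt T (P z') ∂ν := by
  have := hC.fin
  set A : Set E := {z' | ‖T.starProjection (z - z')‖ < r ∧ ‖co T (z - z')‖ ≤ w} with hA
  have hAm : MeasurableSet A :=
    (isOpen_lt (cont_p T z) continuous_const).measurableSet.inter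
      (isClosed_le (cont_q T z) continuous_const).measurableSet
  have hti : Integrable (fun z => tilt T (P z)) ν := by
    have := integrable_mul_tilt hC (g := fun _ => (1 : ℝ)) aestronglyMeasurable_const (C := 1)
      (Eventually.of_forall fun _ => by simp)
    simpa using this
  rw [← integral_indicator hAm]
  refine integral_mono_ae (integrable_win_tilt hC z) (hti.indicator hAm) ?_
  filter_upwards [tilt_ae hC] with z' ht
  by_cases hz : z' ∈ A
  · rw [indicator_of_mem hz]
    calc win T r w (z - z') * tilt T (P z') ≤ 1 * tilt T (P z') := by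
          gcongr
          · exact ht.1
          · exact win_le_one _
      _ = _ := one_mul _
  · rw [indicator_of_notMem hz]
    have h0 : win T r w (z - z') = 0 := by
      unfold win
      by_cases h1 : ‖co T (z - z')‖ ≤ w
      · rw [indicator_of_mem (by exact h1)]
        refine ker_eq_zero hr ?_
        by_contra h2
        push Not at h2
        exact hz ⟨h2, h1⟩
      · rw [indicator_of_notMem (by exact h1)]
    rw [h0, zero_mul]

/-- the lower bound for the main term -/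
lemma mn_ge (hC : CylStat m T G h ν P) (hr : 0 < r) (hψ : ContDiff ℝ 1 ψ) (hb : BaseCpt T G ψ)
    (hψ0 : ∀ y, 0 ≤ ψ y) {Cls : Set E} (hCls : MeasurableSet Cls) {c : ℝ} (hc : 0 ≤ c)
    (hcl : ∀ᵐ z ∂ν, z ∈ Cls → ψ z ≠ 0 →
      c ≤ ν.real {z' | ‖T.starProjection (z - z')‖ ≤ r / 2 ∧ ‖co T (z - z')‖ ≤ w} ∧
      ∫ z' in {z' | ‖T.starProjection (z - z')‖ < r ∧ ‖co T (z - z')‖ ≤ w}, tilt T (P z') ∂ν ≤
        c / 8 * tilt T (P z)) :
    5 / 96 * c * ∫ z in Cls, ψ z * tilt T (P z) ∂ν ≤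
      ∫ q, mn T r w ψ P Cls q ∂(ν.prod ν) := by
  have := hC.fin
  have hmi := integrable_mn (r := r) (w := w) hC hψ hb hCls
  obtain ⟨C, hC0, hCb⟩ := hC.bound hψ.continuous hb
  have hψi := integrable_mul_tilt hC hψ.continuous.aestronglyMeasurable hCb
  rw [integral_prod _ hmi, ← integral_indicator hCls, ← integral_const_mul]
  refine integral_mono_ae ((hψi.indicator hCls).const_mul _) hmi.integral_prod_left ?_
  filter_upwards [hcl, tilt_ae hC] with z hz ht
  have h1 : ∫ z', mn T r w ψ P Cls (z, z') ∂ν =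
      Cls.indicator 1 z * (ψ z * (1 / 6 * tilt T (P z) * ∫ z', win T r w (z - z') ∂ν -
        1 / 3 * ∫ z', win T r w (z - z') * tilt T (P z') ∂ν)) := by
    unfold mn
    simp only
    rw [integral_const_mul, integral_const_mul]
    congr 2
    rw [← integral_const_mul, ← integral_const_mul,
      ← integral_sub ((integrable_win hC z).const_mul _) ((integrable_win_tilt hC z).const_mul _)]
    refine integral_congr_ae (Eventually.of_forall fun z' => ?_)
    simp only
    ring
  rw [h1]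
  by_cases hzc : z ∈ Cls
  · rw [indicator_of_mem hzc, indicator_of_mem hzc]
    simp only [Pi.one_apply, one_mul]
    by_cases hz0 : ψ z = 0
    · simp [hz0]
    obtain ⟨h2, h3⟩ := hz hzc hz0
    have h4 := win_mass (w := w) hC hr z
    have h5 := win_tilt (w := w) hC hr z
    have h6 : 9 / 16 * c ≤ ∫ z', win T r w (z - z') ∂ν := by linarith
    have h7 : ∫ z', win T r w (z - z') * tilt T (P z') ∂ν ≤ c / 8 * tilt T (P z) := h5.trans h3
    have h8 : 1 / 6 * tilt T (P z) * (9 / 16 * c) ≤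
        1 / 6 * tilt T (P z) * ∫ z', win T r w (z - z') ∂ν :=
      mul_le_mul_of_nonneg_left h6 (by linarith [ht.1])
    calc 5 / 96 * c * (ψ z * tilt T (P z)) =
        ψ z * (1 / 6 * tilt T (P z) * (9 / 16 * c) - 1 / 3 * (c / 8 * tilt T (P z))) := by ring
      _ ≤ _ := by
        refine mul_le_mul_of_nonneg_left ?_ (hψ0 z)
        linarith
  · rw [indicator_of_notMem hzc, indicator_of_notMem hzc]
    simp

/-- **The two-point slab lemma.** -/
theorem slab (hC : CylStat m T G h ν P) (hw : 0 < w) (hwr : 4 * w ≤ r)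
    (hψ : ContDiff ℝ 1 ψ) (hb : BaseCpt T G ψ) (hψ0 : ∀ y, 0 ≤ ψ y)
    (hG : ∀ z, ψ z ≠ 0 → ∀ x ∈ T, ‖x - T.starProjection z‖ ≤ r → x ∈ G)
    (hL0 : ∀ z, 0 ≤ Lf z)
    (hL : ∀ z z', ‖T.starProjection (z - z')‖ < r → |ψ z - ψ z'| ≤ r * Lf z)
    (hLi : Integrable (fun z => Lf z * tilt T (P z)) ν) {M : ℝ} (hM0 : 0 ≤ M)
    (hM : ∀ z, (ψ z ≠ 0 ∨ fderiv ℝ ψ z ≠ 0 ∨ Lf z ≠ 0) →
      ν.real {z' | ‖T.starProjection (z - z')‖ < r ∧ ‖co T (z - z')‖ < r} ≤ M)
    {Cls : Set E} (hCls : MeasurableSet Cls) {c : ℝ} (hc : 0 ≤ c)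
    (hcl : ∀ᵐ z ∂ν, z ∈ Cls → ψ z ≠ 0 →
      c ≤ ν.real {z' | ‖T.starProjection (z - z')‖ ≤ r / 2 ∧ ‖co T (z - z')‖ ≤ w} ∧
      ∫ z' in {z' | ‖T.starProjection (z - z')‖ < r ∧ ‖co T (z - z')‖ ≤ w}, tilt T (P z') ∂ν ≤
        c / 8 * tilt T (P z)) :
    c * ∫ z in Cls, ψ z * tilt T (P z) ∂ν ≤
      500 * M * (w * ∫ z, ‖fderiv ℝ ψ z‖ * √(tilt T (P z)) ∂ν +
        w / r * ∫ z, ψ z * tilt T (P z) ∂ν + r * ∫ z, Lf z * tilt T (P z) ∂ν) := by
  have := hC.fin
  have hr : 0 < r := by linarith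
  obtain ⟨C, hC0, hCb⟩ := hC.bound hψ.continuous hb
  have c3 : Continuous (fderiv ℝ ψ) := hψ.continuous_fderiv (by norm_num)
  obtain ⟨C', hC0', hCb'⟩ := hC.bound c3.norm (hb.fderiv.comp_zero (Y := fun y => ‖fderiv ℝ ψ y‖)
    fun y hy => by simp [hy])
  have hψi := integrable_mul_tilt hC hψ.continuous.aestronglyMeasurable hCb
  have hdi := integrable_mul_sqrt_tilt hC c3.norm.aestronglyMeasurable hCb'
  set g : E → ℝ := fun z => err T r w ψ Lf z (P z) with hg
  have hgi : Integrable g ν := by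
    have := ((hψi.const_mul (12 * w / r)).add (hLi.const_mul (8 * r))).add (hdi.const_mul w)
    exact this
  have hgint : ∫ z, g z ∂ν = 12 * w / r * ∫ z, ψ z * tilt T (P z) ∂ν +
      8 * r * ∫ z, Lf z * tilt T (P z) ∂ν + w * ∫ z, ‖fderiv ℝ ψ z‖ * √(tilt T (P z)) ∂ν := by
    rw [← integral_const_mul, ← integral_const_mul, ← integral_const_mul,
      ← integral_add (hψi.const_mul (12 * w / r)) (hLi.const_mul (8 * r)),
      ← integral_add (f := fun z => 12 * w / r * (ψ z * tilt T (P z)) +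
          8 * r * (Lf z * tilt T (P z)))
        ((hψi.const_mul (12 * w / r)).add (hLi.const_mul (8 * r))) (hdi.const_mul w)]
    rfl
  have hg0 : ∀ᵐ z ∂ν, 0 ≤ g z := by
    filter_upwards [tilt_ae hC] with z ht
    simp only [hg, err]
    have h1 := ht.1
    have h2 := hψ0 z
    have h3 := hL0 z
    positivity
  have hgM : ∀ z, g z ≠ 0 → ν.real {z' | z - z' ∈ dom T r} ≤ M := by
    intro z hz
    refine hM z ?_
    by_contra h0
    push Not at h0
    obtain ⟨h1, h2, h3⟩ := h0
    refine hz ?_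
    simp [hg, err, h1, h2, h3]
  -- the two-point identity
  have hid := two_point hC hw hwr hψ hb hG
  have hΦi := (integrable_e1 hC hw hwr hψ hb).sub (integrable_e2 hC hw hwr hψ hb)
  set Φ : E × E → ℝ := fun q => e1 T r w ψ q (P q.1) - e2 T r w ψ q (P q.1) (P q.2) with hΦ
  have hΦi' : Integrable Φ (ν.prod ν) := hΦi
  have hsw : ∫ q : E × E, Φ q.swap ∂(ν.prod ν) = 0 := by
    rw [integral_prod_swap Φ]; exact hid
  have hsum : ∫ q : E × E, (Φ q + Φ q.swap) ∂(ν.prod ν) = 0 := by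
    have e0 : ∫ q : E × E, (Φ q + Φ q.swap) ∂(ν.prod ν) =
        ∫ q : E × E, Φ q ∂(ν.prod ν) + ∫ q : E × E, Φ q.swap ∂(ν.prod ν) :=
      integral_add hΦi' hΦi'.swap
    rw [e0, hsw, add_zero]
    exact hid
  have hmi := integrable_mn (r := r) (w := w) hC hψ hb hCls
  have hlow : ∫ q : E × E, (mn T r w ψ P Cls q -
      ((dom T r).indicator (fun _ => g q.1) (q.1 - q.2) +
        (dom T r).indicator (fun _ => g q.2) (q.1 - q.2))) ∂(ν.prod ν) ≤ 0 := by
    rw [← hsum]
    refine integral_mono_ae (hmi.sub ((integrable_ind hgi).add (integrable_ind' hgi)))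
      (hΦi'.add hΦi'.swap) ?_
    filter_upwards [ae_fst hC.proj, ae_snd hC.proj] with q h1 h2
    obtain ⟨S, hS, hP⟩ := h1
    obtain ⟨S', hS', hP'⟩ := h2
    have hθ0 : 0 ≤ Cls.indicator (1 : E → ℝ) q.1 := indicator_nonneg (fun _ _ => zero_le_one) _
    have hθ1 : Cls.indicator (1 : E → ℝ) q.1 ≤ 1 := indicator_le_self' (fun _ _ => zero_le_one) _
    have := point (S := S) (S' := S') (hS.trans hC.dimT.symm) (hS'.trans hC.dimT.symm) hw hwr hψ0
      hL0 hL hθ0 hθ1 q.1 q.2
    have e : (dom T r).indicator (fun _ => err T r w ψ Lf q.1 S.starProjection +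
        err T r w ψ Lf q.2 S'.starProjection) (q.1 - q.2) =
        (dom T r).indicator (fun _ => g q.1) (q.1 - q.2) +
        (dom T r).indicator (fun _ => g q.2) (q.1 - q.2) := by
      simp only [hg, hP, hP']
      by_cases hq : q.1 - q.2 ∈ dom T r
      · rw [indicator_of_mem hq, indicator_of_mem hq, indicator_of_mem hq]
      · rw [indicator_of_notMem hq, indicator_of_notMem hq, indicator_of_notMem hq, add_zero]
    rw [e] at this
    simp only [mn, hΦ, Function.comp, Prod.fst_swap, Prod.snd_swap]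
    rw [hP, hP']
    exact this
  have hspl : ∫ q : E × E, (mn T r w ψ P Cls q -
      ((dom T r).indicator (fun _ => g q.1) (q.1 - q.2) +
        (dom T r).indicator (fun _ => g q.2) (q.1 - q.2))) ∂(ν.prod ν) =
      ∫ q : E × E, mn T r w ψ P Cls q ∂(ν.prod ν) -
        (∫ q : E × E, (dom T r).indicator (fun _ => g q.1) (q.1 - q.2) ∂(ν.prod ν) +
          ∫ q : E × E, (dom T r).indicator (fun _ => g q.2) (q.1 - q.2) ∂(ν.prod ν)) := by
    rw [← integral_add (integrable_ind hgi) (integrable_ind' hgi)]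
    exact integral_sub hmi ((integrable_ind hgi).add (integrable_ind' hgi))
  rw [hspl] at hlow
  have h1 := integral_ind_le (T := T) (r := r) hgi hg0 hgM
  have h2 := integral_ind_le' (T := T) (r := r) hgi hg0 hgM
  have h3 := mn_ge (w := w) hC hr hψ hb hψ0 hCls hc hcl
  have h4 : 5 / 96 * c * ∫ z in Cls, ψ z * tilt T (P z) ∂ν ≤ 2 * M * ∫ z, g z ∂ν := by linarith
  have p1 : 0 ≤ ∫ z, ψ z * tilt T (P z) ∂ν := by
    refine integral_nonneg_of_ae ?_
    filter_upwards [tilt_ae hC] with z ht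
    exact mul_nonneg (hψ0 z) ht.1
  have p2 : 0 ≤ ∫ z, Lf z * tilt T (P z) ∂ν := by
    refine integral_nonneg_of_ae ?_
    filter_upwards [tilt_ae hC] with z ht
    exact mul_nonneg (hL0 z) ht.1
  have p3 : 0 ≤ ∫ z, ‖fderiv ℝ ψ z‖ * √(tilt T (P z)) ∂ν := by
    refine integral_nonneg fun z => ?_
    positivity
  rw [hgint] at h4
  set I1 := ∫ z, ψ z * tilt T (P z) ∂ν
  set I2 := ∫ z, Lf z * tilt T (P z) ∂ν
  set I3 := ∫ z, ‖fderiv ℝ ψ z‖ * √(tilt T (P z)) ∂ν
  set J := ∫ z in Cls, ψ z * tilt T (P z) ∂ν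
  have h5 : c * J ≤ 96 / 5 * (2 * M * (12 * w / r * I1 + 8 * r * I2 + w * I3)) := by linarith
  refine h5.trans ?_
  have q1 : 0 ≤ M * (w / r * I1) := by positivity
  have q2 : 0 ≤ M * (r * I2) := by positivity
  have q3 : 0 ≤ M * (w * I3) := by positivity
  have e1 : 96 / 5 * (2 * M * (12 * w / r * I1 + 8 * r * I2 + w * I3)) =
      96 / 5 * 24 * (M * (w / r * I1)) + 96 / 5 * 16 * (M * (r * I2)) +
        96 / 5 * 2 * (M * (w * I3)) := by ring
  have e2 : 500 * M * (w * I3 + w / r * I1 + r * I2) =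
      500 * (M * (w / r * I1)) + 500 * (M * (r * I2)) + 500 * (M * (w * I3)) := by ring
  rw [e1, e2]
  linarith

/-- the two-point slab lemma for a null measurable class -/
theorem slab_null (hC : CylStat m T G h ν P) (hw : 0 < w) (hwr : 4 * w ≤ r)
    (hψ : ContDiff ℝ 1 ψ) (hb : BaseCpt T G ψ) (hψ0 : ∀ y, 0 ≤ ψ y)
    (hG : ∀ z, ψ z ≠ 0 → ∀ x ∈ T, ‖x - T.starProjection z‖ ≤ r → x ∈ G)
    (hL0 : ∀ z, 0 ≤ Lf z)
    (hL : ∀ z z', ‖T.starProjection (z - z')‖ < r → |ψ z - ψ z'| ≤ r * Lf z)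
    (hLi : Integrable (fun z => Lf z * tilt T (P z)) ν) {M : ℝ} (hM0 : 0 ≤ M)
    (hM : ∀ z, (ψ z ≠ 0 ∨ fderiv ℝ ψ z ≠ 0 ∨ Lf z ≠ 0) →
      ν.real {z' | ‖T.starProjection (z - z')‖ < r ∧ ‖co T (z - z')‖ < r} ≤ M)
    {Cls : Set E} (hCls : NullMeasurableSet Cls ν) {c : ℝ} (hc : 0 ≤ c)
    (hcl : ∀ᵐ z ∂ν, z ∈ Cls → ψ z ≠ 0 →
      c ≤ ν.real {z' | ‖T.starProjection (z - z')‖ ≤ r / 2 ∧ ‖co T (z - z')‖ ≤ w} ∧
      ∫ z' in {z' | ‖T.starProjection (z - z')‖ < r ∧ ‖co T (z - z')‖ ≤ w}, tilt T (P z') ∂ν ≤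
        c / 8 * tilt T (P z)) :
    c * ∫ z in Cls, ψ z * tilt T (P z) ∂ν ≤
      500 * M * (w * ∫ z, ‖fderiv ℝ ψ z‖ * √(tilt T (P z)) ∂ν +
        w / r * ∫ z, ψ z * tilt T (P z) ∂ν + r * ∫ z, Lf z * tilt T (P z) ∂ν) := by
  obtain ⟨S, -, hS, hSe⟩ := hCls.exists_measurable_superset_ae_eq
  rw [← setIntegral_congr_set hSe]
  refine slab hC hw hwr hψ hb hψ0 hG hL0 hL hLi hM0 hM hS hc ?_
  filter_upwards [hcl, hSe] with z hz he hzS hz0
  have he' : (z ∈ S) = (z ∈ Cls) := he
  exact hz (he' ▸ hzS) hz0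

end Vale.Agent.P214.TP
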