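import Vale.Agent.P214.TP.Sign

/-!
# P214, block TP, part 3: the two-point identity

Test the first point `z` with `ψ(z) K(z - z') ∇F(z - z')` and the second point `z'` with
`K(z - z') p P_z ∇F(z - z')`, and add.
-/

open Set Filter Topology MeasureTheory Metric
open scoped RealInnerProductSpace

set_option linter.all false

namespace Vale.Agent.P214.TP

open Vale.Agent.P214.FV

variable {E : Type*} [NormedAddCommGroup E] [InnerProductSpace ℝ E] [FiniteDimensional ℝ E]
variable [MeasurableSpace E] [BorelSpace E]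
variable {m : ℕ} {T : Submodule ℝ E} {G : Set E} {h r w : ℝ} {ν : Measure E}
  {P : E → E →L[ℝ] E} {ψ : E → ℝ}

/-- first integrand -/
noncomputable def e1 (T : Submodule ℝ E) (r w : ℝ) (ψ : E → ℝ) (q : E × E) (A : E →L[ℝ] E) : ℝ :=
  ψ q.1 * ker T r (q.1 - q.2) * tr ((fderiv ℝ (gf T r w) (q.1 - q.2)).comp A) +
    (ψ q.1 * fderiv ℝ (ker T r) (q.1 - q.2) (A (gf T r w (q.1 - q.2))) +
      ker T r (q.1 - q.2) * fderiv ℝ ψ q.1 (A (gf T r w (q.1 - q.2))))

/-- second integrand -/
noncomputable def e2 (T : Submodule ℝ E) (r w : ℝ) (ψ : E → ℝ) (q : E × E) (A A' : E →L[ℝ] E) :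
    ℝ :=
  ψ q.1 * (ker T r (q.1 - q.2) *
      tr ((T.starProjection.comp (A.comp (fderiv ℝ (gf T r w) (q.1 - q.2)))).comp A') +
    fderiv ℝ (ker T r) (q.1 - q.2) (A' (T.starProjection (A (gf T r w (q.1 - q.2))))))

omit [FiniteDimensional ℝ E] [MeasurableSpace E] [BorelSpace E] in
lemma hasFDerivAt_sub_right {F : Type*} [NormedAddCommGroup F] [NormedSpace ℝ F] {f : E → F}
    {f' : E →L[ℝ] F} {z z' : E} (hf : HasFDerivAt f f' (z - z')) :
    HasFDerivAt (fun z => f (z - z')) f' z := by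
  have h1 : HasFDerivAt (fun z : E => z - z') (ContinuousLinearMap.id ℝ E) z :=
    (hasFDerivAt_id z).sub_const z'
  have h2 : HasFDerivAt (f ∘ fun z : E => z - z') (f'.comp (ContinuousLinearMap.id ℝ E)) z :=
    hf.comp z h1
  rw [ContinuousLinearMap.comp_id] at h2
  exact h2

omit [FiniteDimensional ℝ E] [MeasurableSpace E] [BorelSpace E] in
lemma hasFDerivAt_sub_left {F : Type*} [NormedAddCommGroup F] [NormedSpace ℝ F] {f : E → F}
    {f' : E →L[ℝ] F} {z z' : E} (hf : HasFDerivAt f f' (z - z')) :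
    HasFDerivAt (fun z' => f (z - z')) (-f') z' := by
  have h1 : HasFDerivAt (fun z' : E => z - z') (-ContinuousLinearMap.id ℝ E) z' :=
    (hasFDerivAt_id z').const_sub z
  have h2 : HasFDerivAt (f ∘ fun z' : E => z - z') (f'.comp (-ContinuousLinearMap.id ℝ E)) z' :=
    hf.comp z' h1
  rw [ContinuousLinearMap.comp_neg, ContinuousLinearMap.comp_id] at h2
  exact h2

/-- identity in the first point -/
lemma ident1 (hC : CylStat m T G h ν P) (hr : 0 < r) (hw : 0 < w) (hψ : ContDiff ℝ 1 ψ)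
    (hb : BaseCpt T G ψ) (z' : E) : ∫ z, e1 T r w ψ (z, z') (P z) ∂ν = 0 := by
  have hk : ContDiff ℝ 1 (fun z => ker T r (z - z')) :=
    contDiff_ker.comp (contDiff_id.sub contDiff_const)
  have hg : ContDiff ℝ 1 (fun z => gf T r w (z - z')) :=
    (contDiff_gf hw hr).comp (contDiff_id.sub contDiff_const)
  have h1 := hC.prod (φ := fun z => ψ z * ker T r (z - z')) (W := fun z => gf T r w (z - z'))
    (hψ.mul hk) hg (hb.comp_zero fun y hy => by simp [hy])
  rw [← h1]
  refine integral_congr_ae (Eventually.of_forall fun z => ?_)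
  have hdk : HasFDerivAt (fun z => ker T r (z - z')) (fderiv ℝ (ker T r) (z - z')) z :=
    hasFDerivAt_sub_right ((contDiff_ker.differentiable (by norm_num) _).hasFDerivAt)
  have hdg : HasFDerivAt (fun z => gf T r w (z - z')) (fderiv ℝ (gf T r w) (z - z')) z :=
    hasFDerivAt_sub_right (((contDiff_gf hw hr).differentiable (by norm_num) _).hasFDerivAt)
  have hdψ : HasFDerivAt ψ (fderiv ℝ ψ z) z := (hψ.differentiable (by norm_num) z).hasFDerivAt
  have h2 : fderiv ℝ (fun z => ψ z * ker T r (z - z')) z = _ := (hdψ.mul hdk).fderiv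
  simp only [e1]
  rw [h2, hdg.fderiv]
  simp only [ContinuousLinearMap.add_apply, ContinuousLinearMap.smul_apply, smul_eq_mul]

/-- the second point can be tested as soon as the base ball of radius `r` lies in `G` -/
lemma baseCpt_ker (hr : 0 < r) {z : E}
    (hG : ∀ x ∈ T, ‖x - T.starProjection z‖ ≤ r → x ∈ G) :
    BaseCpt T G (fun z' => ker T r (z - z')) := by
  refine ⟨{x | x ∈ T ∧ ‖x - T.starProjection z‖ ≤ r}, ?_, ?_, ?_⟩
  · refine Metric.isCompact_of_isClosed_isBounded ?_ ?_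
    · exact T.closed_of_finiteDimensional.inter
        (isClosed_le (continuous_id.sub continuous_const).norm continuous_const)
    · refine (Metric.isBounded_closedBall (x := T.starProjection z) (r := r)).subset ?_
      rintro y ⟨-, h2⟩
      rwa [mem_closedBall, dist_eq_norm]
  · rintro x ⟨h1, h2⟩
    exact hG x h1 h2
  · intro y hy
    refine ker_eq_zero hr ?_
    by_contra h0
    push Not at h0
    refine hy ⟨T.starProjection_apply_mem y, ?_⟩
    rw [← norm_neg, neg_sub, ← map_sub]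
    exact h0.le

/-- identity in the second point -/
lemma ident2 (hC : CylStat m T G h ν P) (hr : 0 < r) (hw : 0 < w) {z : E}
    (hG : ψ z ≠ 0 → ∀ x ∈ T, ‖x - T.starProjection z‖ ≤ r → x ∈ G) (A : E →L[ℝ] E) :
    ∫ z', e2 T r w ψ (z, z') A (P z') ∂ν = 0 := by
  by_cases hz : ψ z = 0
  · simp [e2, hz]
  have hk : ContDiff ℝ 1 (fun z' => ker T r (z - z')) :=
    contDiff_ker.comp (contDiff_const.sub contDiff_id)
  have hg : ContDiff ℝ 1 (fun z' => T.starProjection (A (gf T r w (z - z')))) :=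
    T.starProjection.contDiff.comp
      (A.contDiff.comp ((contDiff_gf hw hr).comp (contDiff_const.sub contDiff_id)))
  have h1 := hC.prod (φ := fun z' => ker T r (z - z'))
    (W := fun z' => T.starProjection (A (gf T r w (z - z')))) hk hg (baseCpt_ker hr (hG hz))
  simp only [e2]
  rw [integral_const_mul, ← neg_eq_zero, ← mul_neg, ← integral_neg]
  have h0 : (∫ z', -(ker T r (z - z') *
      tr ((T.starProjection.comp (A.comp (fderiv ℝ (gf T r w) (z - z')))).comp (P z')) +
      fderiv ℝ (ker T r) (z - z') (P z' (T.starProjection (A (gf T r w (z - z')))))) ∂ν) = 0 := by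
    rw [← h1]
    refine integral_congr_ae (Eventually.of_forall fun z' => ?_)
    have hdk : HasFDerivAt (fun z' => ker T r (z - z')) (-fderiv ℝ (ker T r) (z - z')) z' :=
      hasFDerivAt_sub_left ((contDiff_ker.differentiable (by norm_num) _).hasFDerivAt)
    have hdg : HasFDerivAt (fun z' => gf T r w (z - z')) (-fderiv ℝ (gf T r w) (z - z')) z' :=
      hasFDerivAt_sub_left (((contDiff_gf hw hr).differentiable (by norm_num) _).hasFDerivAt)
    have hdW : HasFDerivAt (fun z' => T.starProjection (A (gf T r w (z - z'))))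
        (T.starProjection.comp (A.comp (-fderiv ℝ (gf T r w) (z - z')))) z' :=
      T.starProjection.hasFDerivAt.comp z' (A.hasFDerivAt.comp z' hdg)
    simp only
    rw [hdk.fderiv, hdW.fderiv]
    have h3 : (T.starProjection.comp (A.comp (-fderiv ℝ (gf T r w) (z - z')))).comp (P z') =
        (-1 : ℝ) • (T.starProjection.comp (A.comp (fderiv ℝ (gf T r w) (z - z')))).comp (P z') := by
      ext u
      simp
    rw [h3, tr_smul]
    simp only [ContinuousLinearMap.neg_apply]
    ring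
  rw [h0, mul_zero]

/-- measurability on the product -/
lemma aesm4 (hC : CylStat m T G h ν P) {F : (E × E) × ((E →L[ℝ] E) × (E →L[ℝ] E)) → ℝ}
    (hF : Continuous F) :
    AEStronglyMeasurable (fun q : E × E => F (q, (P q.1, P q.2))) (ν.prod ν) := by
  have := hC.fin
  have h1 : AEStronglyMeasurable (fun q : E × E => P q.1) (ν.prod ν) := hC.meas.comp_fst
  have h2 : AEStronglyMeasurable (fun q : E × E => P q.2) (ν.prod ν) := hC.meas.comp_snd
  exact hF.comp_aestronglyMeasurable
    (aestronglyMeasurable_id.prodMk (h1.prodMk h2))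

lemma ae_fst [IsFiniteMeasure ν] {p : E → Prop} (hp : ∀ᵐ y ∂ν, p y) :
    ∀ᵐ q ∂(ν.prod ν), p q.1 :=
  Measure.quasiMeasurePreserving_fst.ae hp

lemma ae_snd [IsFiniteMeasure ν] {p : E → Prop} (hp : ∀ᵐ y ∂ν, p y) :
    ∀ᵐ q ∂(ν.prod ν), p q.2 :=
  Measure.quasiMeasurePreserving_snd.ae hp

lemma integrable_e1 (hC : CylStat m T G h ν P) (hw : 0 < w) (hwr : 4 * w ≤ r)
    (hψ : ContDiff ℝ 1 ψ) (hb : BaseCpt T G ψ) :
    Integrable (fun q : E × E => e1 T r w ψ q (P q.1)) (ν.prod ν) := by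
  have := hC.fin
  have hr : 0 < r := by linarith
  have c1 : Continuous (fderiv ℝ (gf T r w)) := (contDiff_gf hw hr).continuous_fderiv (by norm_num)
  have c2 : Continuous (fderiv ℝ (ker T r)) := contDiff_ker.continuous_fderiv (by norm_num)
  have c3 : Continuous (fderiv ℝ ψ) := hψ.continuous_fderiv (by norm_num)
  have c4 : Continuous (gf T r w) := (contDiff_gf hw hr).continuous
  have c5 : Continuous (ker T r) := contDiff_ker.continuous
  have c6 : Continuous ψ := hψ.continuous
  have hmeas := aesm4 (F := fun a => e1 T r w ψ a.1 a.2.1) hC (by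
    unfold e1
    have h1 : Continuous fun a : (E × E) × ((E →L[ℝ] E) × (E →L[ℝ] E)) =>
        tr ((fderiv ℝ (gf T r w) (a.1.1 - a.1.2)).comp a.2.1) := by
      refine continuous_tr.comp ?_
      fun_prop
    fun_prop)
  obtain ⟨C, hC0, hCb⟩ := hC.bound hψ.continuous hb
  obtain ⟨C', hC0', hCb'⟩ := hC.bound c3.norm (hb.fderiv.comp_zero (Y := fun y => ‖fderiv ℝ ψ y‖)
    fun y hy => by simp [hy])
  refine Integrable.mono' (integrable_const (C * 1 * ((Module.finrank ℝ E : ℝ) * (3 * 1)) +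
    (C * (4 / r * (1 * w)) + 1 * (C' * (1 * w))))) hmeas ?_
  filter_upwards [ae_fst hCb, ae_fst hCb', ae_fst hC.norm_le] with q h1 h2 h3
  rw [norm_norm] at h2
  have k1 := ker_nonneg (T := T) (r := r) (q.1 - q.2)
  have k2 := ker_le_one (T := T) (r := r) (q.1 - q.2)
  have k3 := norm_fderiv_ker_le (T := T) hr (q.1 - q.2)
  have k4 := norm_gf_le (T := T) (r := r) hw (q.1 - q.2)
  have k5 := norm_fderiv_gf_le (T := T) hw hwr (q.1 - q.2)
  have k6 : ‖P q.1 (gf T r w (q.1 - q.2))‖ ≤ 1 * w :=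
    ((P q.1).le_opNorm _).trans (by gcongr)
  have k7 : |tr ((fderiv ℝ (gf T r w) (q.1 - q.2)).comp (P q.1))| ≤
      (Module.finrank ℝ E : ℝ) * (3 * 1) := by
    refine (abs_tr_le _).trans ?_
    gcongr
    exact (ContinuousLinearMap.opNorm_comp_le _ _).trans (by gcongr)
  rw [Real.norm_eq_abs] at h1 ⊢
  unfold e1
  refine (abs_add_le _ _).trans ?_
  refine add_le_add ?_ ((abs_add_le _ _).trans (add_le_add ?_ ?_))
  · rw [abs_mul, abs_mul, abs_of_nonneg k1]
    gcongr
  · rw [abs_mul]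
    gcongr
    exact ((fderiv ℝ (ker T r) (q.1 - q.2)).le_opNorm _).trans (by gcongr)
  · rw [abs_mul, abs_of_nonneg k1]
    gcongr
    exact ((fderiv ℝ ψ q.1).le_opNorm _).trans (by gcongr)

lemma integrable_e2 (hC : CylStat m T G h ν P) (hw : 0 < w) (hwr : 4 * w ≤ r)
    (hψ : ContDiff ℝ 1 ψ) (hb : BaseCpt T G ψ) :
    Integrable (fun q : E × E => e2 T r w ψ q (P q.1) (P q.2)) (ν.prod ν) := by
  have := hC.fin
  have hr : 0 < r := by linarith
  have c1 : Continuous (fderiv ℝ (gf T r w)) := (contDiff_gf hw hr).continuous_fderiv (by norm_num)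
  have c2 : Continuous (fderiv ℝ (ker T r)) := contDiff_ker.continuous_fderiv (by norm_num)
  have c4 : Continuous (gf T r w) := (contDiff_gf hw hr).continuous
  have c5 : Continuous (ker T r) := contDiff_ker.continuous
  have c6 : Continuous ψ := hψ.continuous
  have hmeas := aesm4 (F := fun a => e2 T r w ψ a.1 a.2.1 a.2.2) hC (by
    unfold e2
    have h1 : Continuous fun a : (E × E) × ((E →L[ℝ] E) × (E →L[ℝ] E)) =>
        tr ((T.starProjection.comp (a.2.1.comp (fderiv ℝ (gf T r w) (a.1.1 - a.1.2)))).comp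
          a.2.2) := by
      refine continuous_tr.comp ?_
      fun_prop
    fun_prop)
  obtain ⟨C, hC0, hCb⟩ := hC.bound hψ.continuous hb
  refine Integrable.mono' (integrable_const (C * (1 * ((Module.finrank ℝ E : ℝ) *
    (1 * (1 * 3) * 1)) + 4 / r * (1 * (1 * (1 * w)))))) hmeas ?_
  filter_upwards [ae_fst hCb, ae_fst hC.norm_le, ae_snd hC.norm_le] with q h1 h3 h4
  have k1 := ker_nonneg (T := T) (r := r) (q.1 - q.2)
  have k2 := ker_le_one (T := T) (r := r) (q.1 - q.2)
  have k3 := norm_fderiv_ker_le (T := T) hr (q.1 - q.2)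
  have k4 := norm_gf_le (T := T) (r := r) hw (q.1 - q.2)
  have k5 := norm_fderiv_gf_le (T := T) hw hwr (q.1 - q.2)
  have k6 : ‖P q.1 (gf T r w (q.1 - q.2))‖ ≤ 1 * w :=
    ((P q.1).le_opNorm _).trans (by gcongr)
  have kT : ‖T.starProjection‖ ≤ 1 := T.starProjection_norm_le
  have k7 : |tr ((T.starProjection.comp ((P q.1).comp (fderiv ℝ (gf T r w) (q.1 - q.2)))).comp
      (P q.2))| ≤ (Module.finrank ℝ E : ℝ) * (1 * (1 * 3) * 1) := by
    refine (abs_tr_le _).trans ?_
    gcongr
    refine (ContinuousLinearMap.opNorm_comp_le _ _).trans ?_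
    gcongr
    refine (ContinuousLinearMap.opNorm_comp_le _ _).trans ?_
    gcongr
    refine (ContinuousLinearMap.opNorm_comp_le _ _).trans ?_
    gcongr
  rw [Real.norm_eq_abs] at h1 ⊢
  unfold e2
  rw [abs_mul]
  gcongr
  refine (abs_add_le _ _).trans (add_le_add ?_ ?_)
  · rw [abs_mul, abs_of_nonneg k1]
    gcongr
  · refine ((fderiv ℝ (ker T r) (q.1 - q.2)).le_opNorm _).trans ?_
    gcongr
    refine ((P q.2).le_opNorm _).trans ?_
    gcongr
    refine (T.starProjection.le_opNorm _).trans ?_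
    gcongr

/-- **The two-point identity.** -/
theorem two_point (hC : CylStat m T G h ν P) (hw : 0 < w) (hwr : 4 * w ≤ r)
    (hψ : ContDiff ℝ 1 ψ) (hb : BaseCpt T G ψ)
    (hG : ∀ z, ψ z ≠ 0 → ∀ x ∈ T, ‖x - T.starProjection z‖ ≤ r → x ∈ G) :
    ∫ q : E × E, (e1 T r w ψ q (P q.1) - e2 T r w ψ q (P q.1) (P q.2)) ∂(ν.prod ν) = 0 := by
  have := hC.fin
  have hr : 0 < r := by linarith
  rw [integral_sub (integrable_e1 hC hw hwr hψ hb) (integrable_e2 hC hw hwr hψ hb)]
  have h1 : ∫ q : E × E, e1 T r w ψ q (P q.1) ∂(ν.prod ν) = 0 := by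
    rw [integral_prod_symm _ (integrable_e1 hC hw hwr hψ hb)]
    simp only [ident1 hC hr hw hψ hb, integral_zero]
  have h2 : ∫ q : E × E, e2 T r w ψ q (P q.1) (P q.2) ∂(ν.prod ν) = 0 := by
    rw [integral_prod _ (integrable_e2 hC hw hwr hψ hb)]
    have : ∀ z, ∫ z', e2 T r w ψ (z, z') (P z) (P z') ∂ν = 0 := fun z =>
      ident2 hC hr hw (hG z) (P z)
    simp only [this, integral_zero]
  rw [h1, h2, sub_zero]

end Vale.Agent.P214.TP
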