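import Vale.Agent.P214.SL.Radial
import Vale.Agent.P214.FV.Planes

/-!
# P214, block TP (two-point slab lemma), part 1: the kernels

`ker T r v = (1 - |p v|²/r²)_+²` and the vertical field `gf T r w v = w ∇Θ (q v)`,
`Θ = Th r w` the truncated radial function.
-/

open Set Filter Topology MeasureTheory Metric
open scoped RealInnerProductSpace

set_option linter.all false

namespace Vale.Agent.P214.TP

open Vale.Agent.P214.FV

variable {E : Type*} [NormedAddCommGroup E] [InnerProductSpace ℝ E] [FiniteDimensional ℝ E]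

/-! ### The base kernel -/

/-- base kernel `(1 - |p v|²/r²)_+²` -/
noncomputable def ker (T : Submodule ℝ E) (r : ℝ) (v : E) : ℝ :=
  prof (‖T.starProjection v‖ ^ 2 / r ^ 2)

variable {T : Submodule ℝ E} {r w : ℝ}

lemma contDiff_ker : ContDiff ℝ 1 (ker T r) :=
  contDiff_prof.comp ((T.starProjection.contDiff.norm_sq ℝ).div_const _)

lemma ker_nonneg (v : E) : 0 ≤ ker T r v := prof_nonneg _

lemma ker_le_one (v : E) : ker T r v ≤ 1 := prof_le_one (by positivity)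

lemma ker_neg (v : E) : ker T r (-v) = ker T r v := by simp [ker]

lemma ker_eq_zero (hr : 0 < r) {v : E} (h : r ≤ ‖T.starProjection v‖) : ker T r v = 0 := by
  refine prof_of_one_le ?_
  rw [le_div_iff₀ (by positivity)]
  nlinarith

lemma ker_ge (hr : 0 < r) {v : E} (h : ‖T.starProjection v‖ ≤ r / 2) : 9 / 16 ≤ ker T r v := by
  have h1 : ‖T.starProjection v‖ ^ 2 / r ^ 2 ≤ 1 / 4 := by
    rw [div_le_iff₀ (by positivity)]
    nlinarith [norm_nonneg (T.starProjection v)]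
  have h2 : 0 ≤ ‖T.starProjection v‖ ^ 2 / r ^ 2 := by positivity
  unfold ker prof
  rw [max_eq_left (by linarith)]
  nlinarith

lemma hasFDerivAt_ker (v : E) : HasFDerivAt (ker T r)
    ((-(2 * dprof (‖T.starProjection v‖ ^ 2 / r ^ 2) / r ^ 2)) •
      innerSL ℝ (T.starProjection v)) v := by
  have h1 : HasFDerivAt (fun v => ‖T.starProjection v‖ ^ 2)
      (2 • (innerSL ℝ (T.starProjection v)).comp T.starProjection) v :=
    T.starProjection.hasFDerivAt.norm_sq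
  have h2 : HasDerivAt (fun s => prof (s / r ^ 2))
      (-dprof (‖T.starProjection v‖ ^ 2 / r ^ 2) * (1 / r ^ 2)) (‖T.starProjection v‖ ^ 2) := by
    have h3 : HasDerivAt (fun s : ℝ => s / r ^ 2) (1 / r ^ 2) (‖T.starProjection v‖ ^ 2) :=
      (hasDerivAt_id _).div_const _
    exact (hasDerivAt_prof _).comp _ h3
  have h4 := h2.comp_hasFDerivAt v h1
  refine h4.congr_fderiv ?_
  ext u
  have h5 : ⟪T.starProjection v, T.starProjection u⟫ = ⟪T.starProjection v, u⟫ := by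
    rw [← inner_star, star_self]
  simp only [ContinuousLinearMap.smul_apply, ContinuousLinearMap.comp_apply, innerSL_apply_apply,
    smul_eq_mul, nsmul_eq_mul, h5]
  push_cast
  ring

lemma fderiv_ker (v u : E) : fderiv ℝ (ker T r) v u =
    -(2 * dprof (‖T.starProjection v‖ ^ 2 / r ^ 2) / r ^ 2) * ⟪T.starProjection v, u⟫ := by
  rw [(hasFDerivAt_ker v).fderiv]
  simp [innerSL_apply_apply]

lemma fderiv_ker_eq_zero (hr : 0 < r) {v : E} (h : r ≤ ‖T.starProjection v‖) :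
    fderiv ℝ (ker T r) v = 0 := by
  rw [(hasFDerivAt_ker v).fderiv]
  have : dprof (‖T.starProjection v‖ ^ 2 / r ^ 2) = 0 := by
    refine dprof_of_one_le ?_
    rw [le_div_iff₀ (by positivity)]
    nlinarith
  simp [this]

/-- the scalar factor in the derivative of the kernel -/
lemma dker_bound (hr : 0 < r) (v : E) :
    (2 * dprof (‖T.starProjection v‖ ^ 2 / r ^ 2) / r ^ 2) * ‖T.starProjection v‖ ≤ 4 / r := by
  rcases le_or_gt r ‖T.starProjection v‖ with h | h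
  · have : dprof (‖T.starProjection v‖ ^ 2 / r ^ 2) = 0 := by
      refine dprof_of_one_le ?_
      rw [le_div_iff₀ (by positivity)]
      nlinarith
    rw [this]
    simp
    positivity
  · have h1 : dprof (‖T.starProjection v‖ ^ 2 / r ^ 2) ≤ 2 := dprof_le_two (by positivity)
    calc (2 * dprof (‖T.starProjection v‖ ^ 2 / r ^ 2) / r ^ 2) * ‖T.starProjection v‖
        ≤ (2 * 2 / r ^ 2) * r := by gcongr
      _ = 4 / r := by field_simp; norm_num

lemma norm_fderiv_ker_le (hr : 0 < r) (v : E) : ‖fderiv ℝ (ker T r) v‖ ≤ 4 / r := by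
  refine ContinuousLinearMap.opNorm_le_bound _ (by positivity) fun u => ?_
  rw [fderiv_ker, Real.norm_eq_abs, abs_mul, abs_neg,
    abs_of_nonneg (div_nonneg (mul_nonneg (by norm_num) (dprof_nonneg _)) (by positivity))]
  calc _ ≤ (2 * dprof (‖T.starProjection v‖ ^ 2 / r ^ 2) / r ^ 2) *
        (‖T.starProjection v‖ * ‖u‖) := by
        have := dprof_nonneg (‖T.starProjection v‖ ^ 2 / r ^ 2)
        gcongr
        exact abs_real_inner_le_norm _ _
    _ = ((2 * dprof (‖T.starProjection v‖ ^ 2 / r ^ 2) / r ^ 2) * ‖T.starProjection v‖) * ‖u‖ := by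
        ring
    _ ≤ 4 / r * ‖u‖ := by gcongr; exact dker_bound hr v

/-! ### The vertical field -/

/-- the radius `√(w² + |q v|²)` -/
noncomputable def sr (T : Submodule ℝ E) (w : ℝ) (v : E) : ℝ := SL.rad w (co T v)

/-- the vertical field `w χ_r(s) s⁻¹ q v`, `s = √(w² + |q v|²)` -/
noncomputable def gf (T : Submodule ℝ E) (r w : ℝ) (v : E) : E :=
  (w * (SL.chi r (sr T w v) * (sr T w v)⁻¹)) • co T v

/-- first coefficient of the Hessian -/
noncomputable def ca (T : Submodule ℝ E) (r w : ℝ) (v : E) : ℝ :=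
  w * (SL.chi r (sr T w v) * (sr T w v)⁻¹)

/-- second coefficient of the Hessian -/
noncomputable def cb (T : Submodule ℝ E) (r w : ℝ) (v : E) : ℝ :=
  w * (SL.dchi r (sr T w v) * ((sr T w v)⁻¹) ^ 2 - SL.chi r (sr T w v) * ((sr T w v)⁻¹) ^ 3)

lemma sr_pos (hw : 0 < w) (v : E) : 0 < sr T w v := SL.rad_pos hw _

lemma sr_sq (hw : 0 < w) (v : E) : sr T w v ^ 2 = w ^ 2 + ‖co T v‖ ^ 2 := SL.rad_sq hw _

lemma sr_neg (v : E) : sr T w (-v) = sr T w v := by simp [sr, SL.rad]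

lemma contDiff_sr (hw : 0 < w) : ContDiff ℝ 1 (sr T w) :=
  ((SL.contDiff_rad hw).of_le (by norm_num)).comp (co T).contDiff

lemma hasFDerivAt_sr (hw : 0 < w) (v : E) :
    HasFDerivAt (sr T w) ((sr T w v)⁻¹ • (innerSL ℝ (co T v)).comp (co T)) v := by
  have := (SL.hasFDerivAt_rad hw (co T v)).comp v (co T).hasFDerivAt
  refine this.congr_fderiv ?_
  ext u
  simp [sr]

lemma contDiff_gf (hw : 0 < w) (hr : 0 < r) : ContDiff ℝ 1 (gf T r w) := by
  unfold gf
  refine ContDiff.smul ?_ (co T).contDiff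
  refine contDiff_const.mul (((SL.contDiff_chi hr).comp (contDiff_sr hw)).mul ?_)
  exact (contDiff_sr hw).inv fun v => (sr_pos hw v).ne'

lemma hasFDerivAt_gf (hw : 0 < w) (hr : 0 < r) (v : E) :
    HasFDerivAt (gf T r w)
      (ca T r w v • co T + cb T r w v • (innerSL ℝ (co T v)).smulRight (co T v)) v := by
  have hs := sr_pos (T := T) hw v
  have h1 : HasDerivAt (fun s => w * (SL.chi r s * s⁻¹))
      (w * (SL.dchi r (sr T w v) * (sr T w v)⁻¹ + SL.chi r (sr T w v) * (-((sr T w v) ^ 2)⁻¹)))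
      (sr T w v) :=
    ((SL.hasDerivAt_chi hr _).mul (hasDerivAt_inv hs.ne')).const_mul w
  have h2 := h1.comp_hasFDerivAt v (hasFDerivAt_sr hw v)
  have h3 := h2.smul (co T).hasFDerivAt (x := v)
  refine h3.congr_fderiv ?_
  ext u
  have h4 : ⟪co T v, co T u⟫ = ⟪co T v, u⟫ := by rw [← inner_co, co_self]
  simp only [ContinuousLinearMap.add_apply, ContinuousLinearMap.smul_apply,
    ContinuousLinearMap.smulRight_apply, ContinuousLinearMap.comp_apply, innerSL_apply_apply,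
    smul_eq_mul, Function.comp, ca, cb, h4, smul_smul]
  congr 1
  congr 1
  field_simp
  ring

lemma fderiv_gf (hw : 0 < w) (hr : 0 < r) (v : E) :
    fderiv ℝ (gf T r w) v =
      ca T r w v • co T + cb T r w v • (innerSL ℝ (co T v)).smulRight (co T v) :=
  (hasFDerivAt_gf hw hr v).fderiv

lemma ca_neg (v : E) : ca T r w (-v) = ca T r w v := by simp [ca, sr_neg]

lemma cb_neg (v : E) : cb T r w (-v) = cb T r w v := by simp [cb, sr_neg]

lemma ca_nonneg (hw : 0 < w) (v : E) : 0 ≤ ca T r w v := by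
  have hs := sr_pos (T := T) hw v
  have := SL.chi_nonneg r (sr T w v)
  unfold ca
  positivity

lemma dchi_nonpos (hr : 0 < r) (s : ℝ) : SL.dchi r s ≤ 0 := by
  unfold SL.dchi
  have h1 := dprof_nonneg ((SL.pp (s - r / 2) / (r / 2)) ^ 2)
  have h2 := SL.pp_nonneg (s - r / 2)
  have : 0 ≤ dprof ((SL.pp (s - r / 2) / (r / 2)) ^ 2) * (2 * SL.pp (s - r / 2) / (r / 2) ^ 2) := by
    positivity
  linarith

lemma cb_nonpos (hw : 0 < w) (hr : 0 < r) (v : E) : cb T r w v ≤ 0 := by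
  have hs := sr_pos (T := T) hw v
  have h1 := SL.chi_nonneg r (sr T w v)
  have h2 := dchi_nonpos hr (sr T w v)
  unfold cb
  have h3 : SL.dchi r (sr T w v) * ((sr T w v)⁻¹) ^ 2 ≤ 0 :=
    mul_nonpos_of_nonpos_of_nonneg h2 (by positivity)
  have h4 : 0 ≤ SL.chi r (sr T w v) * ((sr T w v)⁻¹) ^ 3 := by positivity
  nlinarith

lemma inv_sr_le (hw : 0 < w) (v : E) : w * (sr T w v)⁻¹ ≤ 1 := by
  have hs := sr_pos (T := T) hw v
  rw [← div_eq_mul_inv, div_le_one hs]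
  exact SL.sigma_le_rad hw _

lemma norm_co_mul_inv_le (hw : 0 < w) (v : E) : ‖co T v‖ * (sr T w v)⁻¹ ≤ 1 := by
  have hs := sr_pos (T := T) hw v
  rw [← div_eq_mul_inv, div_le_one hs]
  exact SL.norm_le_rad hw _

lemma ca_le_one (hw : 0 < w) (v : E) : ca T r w v ≤ 1 := by
  have h1 := SL.chi_nonneg r (sr T w v)
  have h2 := SL.chi_le_one r (sr T w v)
  have h3 := inv_sr_le (T := T) hw v
  have hs := sr_pos (T := T) hw v
  have h4 : 0 ≤ w * (sr T w v)⁻¹ := by positivity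
  unfold ca
  calc w * (SL.chi r (sr T w v) * (sr T w v)⁻¹) = SL.chi r (sr T w v) * (w * (sr T w v)⁻¹) := by ring
    _ ≤ 1 * 1 := by gcongr
    _ = 1 := one_mul _

/-- `|b| |q v|² ≤ 2` -/
lemma abs_cb_mul_le (hw : 0 < w) (hwr : 4 * w ≤ r) (v : E) :
    |cb T r w v| * ‖co T v‖ ^ 2 ≤ 2 := by
  have hr : 0 < r := by linarith
  have hs := sr_pos (T := T) hw v
  have h1 := SL.chi_nonneg r (sr T w v)
  have h2 := SL.chi_le_one r (sr T w v)
  have h3 := SL.abs_dchi_le hr (sr T w v)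
  have h4 := inv_sr_le (T := T) hw v
  have h5 := norm_co_mul_inv_le (T := T) hw v
  have h6 : 0 ≤ w * (sr T w v)⁻¹ := by positivity
  have h7 : 0 ≤ ‖co T v‖ * (sr T w v)⁻¹ := by positivity
  have h8 : (‖co T v‖ * (sr T w v)⁻¹) ^ 2 ≤ 1 := pow_le_one₀ h7 h5
  have e1 : |cb T r w v| ≤ w * (|SL.dchi r (sr T w v)| * ((sr T w v)⁻¹) ^ 2 +
      SL.chi r (sr T w v) * ((sr T w v)⁻¹) ^ 3) := by
    unfold cb
    rw [abs_mul, abs_of_pos hw]
    gcongr
    refine (abs_sub _ _).trans ?_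
    rw [abs_mul, abs_mul, abs_of_nonneg h1, abs_of_nonneg (by positivity : 0 ≤ ((sr T w v)⁻¹) ^ 2),
      abs_of_nonneg (by positivity : 0 ≤ ((sr T w v)⁻¹) ^ 3)]
  calc |cb T r w v| * ‖co T v‖ ^ 2 ≤ w * (|SL.dchi r (sr T w v)| * ((sr T w v)⁻¹) ^ 2 +
      SL.chi r (sr T w v) * ((sr T w v)⁻¹) ^ 3) * ‖co T v‖ ^ 2 := by gcongr
    _ = (w * |SL.dchi r (sr T w v)|) * (‖co T v‖ * (sr T w v)⁻¹) ^ 2 +
        SL.chi r (sr T w v) * (w * (sr T w v)⁻¹) * (‖co T v‖ * (sr T w v)⁻¹) ^ 2 := by ring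
    _ ≤ (w * (4 / r)) * 1 + 1 * 1 * 1 := by gcongr
    _ ≤ 2 := by
        have : w * (4 / r) ≤ 1 := by
          rw [← mul_div_assoc, div_le_one hr]
          linarith
        linarith

/-- the smallest vertical eigenvalue -/
lemma lam_eq (hw : 0 < w) (v : E) :
    ca T r w v + cb T r w v * ‖co T v‖ ^ 2 =
      SL.chi r (sr T w v) * (w * (sr T w v)⁻¹) ^ 3 +
        w * SL.dchi r (sr T w v) * (‖co T v‖ * (sr T w v)⁻¹) ^ 2 := by
  have hs := sr_pos (T := T) hw v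
  have h1 := sr_sq (T := T) hw v
  have h2 : ‖co T v‖ ^ 2 = sr T w v ^ 2 - w ^ 2 := by linarith
  have e1 : (‖co T v‖ * (sr T w v)⁻¹) ^ 2 = (sr T w v ^ 2 - w ^ 2) * ((sr T w v)⁻¹) ^ 2 := by
    rw [mul_pow, h2]
  rw [e1, h2]
  unfold ca cb
  field_simp
  ring

lemma lam_ge (hw : 0 < w) (hr : 0 < r) (v : E) :
    -(4 * w / r) ≤ ca T r w v + cb T r w v * ‖co T v‖ ^ 2 := by
  rw [lam_eq hw]
  have hs := sr_pos (T := T) hw v
  have h1 := SL.chi_nonneg r (sr T w v)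
  have h3 := SL.abs_dchi_le hr (sr T w v)
  have h5 := norm_co_mul_inv_le (T := T) hw v
  have h7 : 0 ≤ ‖co T v‖ * (sr T w v)⁻¹ := by positivity
  have h8 : (‖co T v‖ * (sr T w v)⁻¹) ^ 2 ≤ 1 := pow_le_one₀ h7 h5
  have h9 : |w * SL.dchi r (sr T w v) * (‖co T v‖ * (sr T w v)⁻¹) ^ 2| ≤ w * (4 / r) * 1 := by
    rw [abs_mul, abs_mul, abs_of_pos hw,
      abs_of_nonneg (sq_nonneg (‖co T v‖ * (sr T w v)⁻¹))]
    gcongr
  have h10 := neg_abs_le (w * SL.dchi r (sr T w v) * (‖co T v‖ * (sr T w v)⁻¹) ^ 2)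
  have h11 : 0 ≤ SL.chi r (sr T w v) * (w * (sr T w v)⁻¹) ^ 3 := by positivity
  have h12 : w * (4 / r) * 1 = 4 * w / r := by ring
  linarith

lemma lam_ge_of_le (hw : 0 < w) (hwr : 4 * w ≤ r) {v : E} (hv : ‖co T v‖ ≤ w) :
    1 / 3 ≤ ca T r w v + cb T r w v * ‖co T v‖ ^ 2 := by
  rw [lam_eq hw]
  have hs := sr_pos (T := T) hw v
  have h1 := sr_sq (T := T) hw v
  have h2 : sr T w v ^ 2 ≤ 2 * w ^ 2 := by nlinarith [norm_nonneg (co T v)]
  have h3 : sr T w v ≤ 2 * w := by nlinarith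
  have h4 : sr T w v ≤ r / 2 := by linarith
  rw [SL.chi_of_le h4, SL.dchi_of_le h4]
  have h5 : sr T w v ^ 3 ≤ 3 * w ^ 3 := by
    have h6 : (sr T w v ^ 3) ^ 2 ≤ (3 * w ^ 3) ^ 2 := by
      have : (sr T w v ^ 2) ^ 3 ≤ (2 * w ^ 2) ^ 3 := by gcongr
      nlinarith [pow_pos hw 6]
    exact (pow_le_pow_iff_left₀ (by positivity) (by positivity) (by norm_num)).1 h6
  have h7 : (w * (sr T w v)⁻¹) ^ 3 = w ^ 3 / sr T w v ^ 3 := by
    rw [mul_pow, inv_pow, div_eq_mul_inv]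
  rw [h7]
  have h8 : 1 / 3 ≤ w ^ 3 / sr T w v ^ 3 := by
    rw [le_div_iff₀ (by positivity)]
    linarith
  linarith

/-- the coefficients vanish for large heights -/
lemma ca_eq_zero (hw : 0 < w) (hr : 0 < r) {v : E} (h : r ≤ ‖co T v‖) : ca T r w v = 0 := by
  have : r ≤ sr T w v := h.trans (SL.norm_le_rad hw _)
  simp [ca, SL.chi_of_ge hr this]

lemma cb_eq_zero (hw : 0 < w) (hr : 0 < r) {v : E} (h : r ≤ ‖co T v‖) : cb T r w v = 0 := by
  have : r ≤ sr T w v := h.trans (SL.norm_le_rad hw _)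
  simp [cb, SL.chi_of_ge hr this, SL.dchi_of_ge hr this]

lemma gf_eq_zero (hw : 0 < w) (hr : 0 < r) {v : E} (h : r ≤ ‖co T v‖) : gf T r w v = 0 := by
  have : gf T r w v = ca T r w v • co T v := rfl
  rw [this, ca_eq_zero hw hr h, zero_smul]

lemma co_gf (v : E) : co T (gf T r w v) = gf T r w v := by
  unfold gf
  rw [map_smul, co_self]

lemma norm_gf_le (hw : 0 < w) (v : E) : ‖gf T r w v‖ ≤ w := by
  have h1 := SL.chi_nonneg r (sr T w v)
  have h2 := SL.chi_le_one r (sr T w v)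
  have hs := sr_pos (T := T) hw v
  have h5 := norm_co_mul_inv_le (T := T) hw v
  have h7 : 0 ≤ ‖co T v‖ * (sr T w v)⁻¹ := by positivity
  unfold gf
  rw [norm_smul, Real.norm_eq_abs, abs_of_nonneg (by positivity)]
  calc w * (SL.chi r (sr T w v) * (sr T w v)⁻¹) * ‖co T v‖
      = w * (SL.chi r (sr T w v) * (‖co T v‖ * (sr T w v)⁻¹)) := by ring
    _ ≤ w * (1 * 1) := by gcongr
    _ = w := by ring

lemma gf_neg (v : E) : gf T r w (-v) = -gf T r w v := by
  simp [gf, sr_neg]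

lemma norm_fderiv_gf_le (hw : 0 < w) (hwr : 4 * w ≤ r) (v : E) :
    ‖fderiv ℝ (gf T r w) v‖ ≤ 3 := by
  have hr : 0 < r := by linarith
  rw [fderiv_gf hw hr]
  refine ContinuousLinearMap.opNorm_le_bound _ (by norm_num) fun u => ?_
  have h1 := ca_nonneg (T := T) (r := r) hw v
  have h2 := ca_le_one (T := T) (r := r) hw v
  have h3 := abs_cb_mul_le (T := T) hw hwr v
  calc ‖(ca T r w v • co T + cb T r w v • (innerSL ℝ (co T v)).smulRight (co T v)) u‖
      = ‖ca T r w v • co T u + cb T r w v • (⟪co T v, u⟫ • co T v)‖ := rfl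
    _ ≤ ‖ca T r w v • co T u‖ + ‖cb T r w v • (⟪co T v, u⟫ • co T v)‖ := norm_add_le _ _
    _ = ca T r w v * ‖co T u‖ + |cb T r w v| * (|⟪co T v, u⟫| * ‖co T v‖) := by
        rw [norm_smul, norm_smul, norm_smul, Real.norm_eq_abs, Real.norm_eq_abs, Real.norm_eq_abs,
          abs_of_nonneg h1]
    _ ≤ 1 * ‖u‖ + |cb T r w v| * ((‖co T v‖ * ‖u‖) * ‖co T v‖) := by
        gcongr
        · exact norm_co_le T u
        · exact abs_real_inner_le_norm _ _
    _ = ‖u‖ + (|cb T r w v| * ‖co T v‖ ^ 2) * ‖u‖ := by ring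
    _ ≤ ‖u‖ + 2 * ‖u‖ := by gcongr
    _ = 3 * ‖u‖ := by ring

end Vale.Agent.P214.TP
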