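import Vale.Agent.P214.TP.Ident

/-!
# P214, block TP, part 4: the pointwise inequality
-/

open Set Filter Topology MeasureTheory Metric
open scoped RealInnerProductSpace

set_option linter.all false

namespace Vale.Agent.P214.TP

open Vale.Agent.P214.FV

variable {E : Type*} [NormedAddCommGroup E] [InnerProductSpace ℝ E] [FiniteDimensional ℝ E]
variable {T S S' : Submodule ℝ E} {r w : ℝ} {ψ : E → ℝ}

/-- the remainder of the two-point identity -/
noncomputable def rem (T : Submodule ℝ E) (r w : ℝ) (ψ : E → ℝ) (q : E × E) (A A' : E →L[ℝ] E) :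
    ℝ :=
  ker T r (q.1 - q.2) * fderiv ℝ ψ q.1 (A (gf T r w (q.1 - q.2))) +
    ψ q.1 * (fderiv ℝ (ker T r) (q.1 - q.2) (A (gf T r w (q.1 - q.2))) -
      fderiv ℝ (ker T r) (q.1 - q.2) (A' (T.starProjection (A (gf T r w (q.1 - q.2))))))

lemma e1_sub_e2 (hw : 0 < w) (hr : 0 < r) (q : E × E) :
    e1 T r w ψ q S.starProjection - e2 T r w ψ q S.starProjection S'.starProjection =
      ψ q.1 * (ker T r (q.1 - q.2) * one T (ca T r w (q.1 - q.2)) (cb T r w (q.1 - q.2))
        (co T (q.1 - q.2)) S.starProjection S'.starProjection) +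
      rem T r w ψ q S.starProjection S'.starProjection := by
  rw [← one_eq]
  unfold e1 e2 rem
  rw [fderiv_gf hw hr]
  unfold Hop
  ring

lemma one_neg (a b' : ℝ) (c : E) (A A' : E →L[ℝ] E) :
    one T a b' (-c) A A' = one T a b' c A A' := by
  unfold one
  simp

lemma norm_star_gf_le (hw : 0 < w) (v : E) :
    ‖S.starProjection (gf T r w v)‖ ≤ √(tilt T S.starProjection) * w := by
  have h1 : gf T r w v ∈ Tᗮ := by
    rw [← co_gf, co_eq]
    exact Submodule.starProjection_apply_mem _ _
  have h2 := norm_sq_star_le_of_mem (S := S) h1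
  refine abs_le_of_sq_le_sq' ?_ (by positivity) |>.2
  rw [mul_pow, Real.sq_sqrt (FV.tilt_nonneg S T)]
  refine h2.trans ?_
  have := FV.tilt_nonneg S T
  gcongr
  exact norm_gf_le hw v

/-- the second part of the remainder is quadratic in the tilts -/
lemma abs_dker_sub_le (hS' : Module.finrank ℝ S' = Module.finrank ℝ T) (hw : 0 < w) (hr : 0 < r)
    (v : E) :
    |fderiv ℝ (ker T r) v (S.starProjection (gf T r w v)) -
      fderiv ℝ (ker T r) v (S'.starProjection (T.starProjection
        (S.starProjection (gf T r w v))))| ≤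
      2 * w / r * (tilt T S.starProjection + tilt T S'.starProjection) := by
  set g := gf T r w v with hg
  set κ := 2 * dprof (‖T.starProjection v‖ ^ 2 / r ^ 2) / r ^ 2 with hκ
  have hκ0 : 0 ≤ κ := div_nonneg (mul_nonneg (by norm_num) (dprof_nonneg _)) (by positivity)
  rw [fderiv_ker, fderiv_ker, ← hκ]
  set u := T.starProjection (S.starProjection g) with hu
  have h1 : ⟪T.starProjection v, S.starProjection g⟫ = ⟪T.starProjection v, u⟫ := by
    rw [hu, ← inner_star T (T.starProjection v), star_self]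
  have h2 : ⟪T.starProjection v, S'.starProjection u⟫ =
      ⟪T.starProjection v, u⟫ - ⟪co S' (T.starProjection v), u⟫ := by
    rw [co_apply, inner_sub_left, ← inner_star S']
    ring
  have h3 : -κ * ⟪T.starProjection v, S.starProjection g⟫ -
      -κ * ⟪T.starProjection v, S'.starProjection u⟫ =
      -(κ * ⟪co S' (T.starProjection v), u⟫) := by
    rw [h1, h2]; ring
  rw [h3, abs_neg, abs_mul, abs_of_nonneg hκ0]
  have t0 := FV.tilt_nonneg S T
  have t0' := FV.tilt_nonneg S' T
  have h4 : ‖co S' (T.starProjection v)‖ ≤ √(tilt T S'.starProjection) * ‖T.starProjection v‖ := by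
    refine abs_le_of_sq_le_sq' ?_ (by positivity) |>.2
    rw [mul_pow, Real.sq_sqrt t0', ← inner_defect]
    exact inner_defect_le S' T hS' v
  have h5 : ‖u‖ ≤ √(tilt T S.starProjection) * w :=
    (norm_star_le T _).trans (norm_star_gf_le hw v)
  have h6 := dker_bound (T := T) hr v
  rw [← hκ] at h6
  have h7 : √(tilt T S.starProjection) * √(tilt T S'.starProjection) ≤
      1 / 2 * (tilt T S.starProjection + tilt T S'.starProjection) := by
    have e1 := Real.sq_sqrt t0
    have e2 := Real.sq_sqrt t0'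
    nlinarith [sq_nonneg (√(tilt T S.starProjection) - √(tilt T S'.starProjection))]
  calc κ * |⟪co S' (T.starProjection v), u⟫|
      ≤ κ * ((√(tilt T S'.starProjection) * ‖T.starProjection v‖) *
        (√(tilt T S.starProjection) * w)) := by
        gcongr
        exact (abs_real_inner_le_norm _ _).trans (by gcongr)
    _ = (κ * ‖T.starProjection v‖) * w *
        (√(tilt T S.starProjection) * √(tilt T S'.starProjection)) := by ring
    _ ≤ 4 / r * w * (1 / 2 * (tilt T S.starProjection + tilt T S'.starProjection)) := by gcongr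
    _ = 2 * w / r * (tilt T S.starProjection + tilt T S'.starProjection) := by ring

/-- the region where the two-point terms live -/
def dom (T : Submodule ℝ E) (r : ℝ) : Set E := {v | ‖T.starProjection v‖ < r ∧ ‖co T v‖ < r}

lemma abs_rem_le (hS' : Module.finrank ℝ S' = Module.finrank ℝ T) (hw : 0 < w) (hr : 0 < r)
    (hψ0 : ∀ y, 0 ≤ ψ y) (q : E × E) :
    |rem T r w ψ q S.starProjection S'.starProjection| ≤
      w * (‖fderiv ℝ ψ q.1‖ * √(tilt T S.starProjection)) +
        2 * w / r * (ψ q.1 * (tilt T S.starProjection + tilt T S'.starProjection)) := by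
  unfold rem
  have k1 := ker_nonneg (T := T) (r := r) (q.1 - q.2)
  have k2 := ker_le_one (T := T) (r := r) (q.1 - q.2)
  refine (abs_add_le _ _).trans (add_le_add ?_ ?_)
  · rw [abs_mul, abs_of_nonneg k1]
    calc ker T r (q.1 - q.2) * |fderiv ℝ ψ q.1 (S.starProjection (gf T r w (q.1 - q.2)))|
        ≤ 1 * (‖fderiv ℝ ψ q.1‖ * (√(tilt T S.starProjection) * w)) := by
          gcongr
          refine ((fderiv ℝ ψ q.1).le_opNorm _).trans ?_
          gcongr
          exact norm_star_gf_le hw _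
      _ = w * (‖fderiv ℝ ψ q.1‖ * √(tilt T S.starProjection)) := by ring
  · rw [abs_mul, abs_of_nonneg (hψ0 q.1)]
    calc _ ≤ ψ q.1 * (2 * w / r * (tilt T S.starProjection + tilt T S'.starProjection)) := by
          have := hψ0 q.1
          gcongr
          exact abs_dker_sub_le hS' hw hr _
      _ = _ := by ring

lemma ker_mul_eq_zero (hw : 0 < w) (hr : 0 < r) {q : E × E} (h : q.1 - q.2 ∉ dom T r)
    (A : E →L[ℝ] E) : e1 T r w ψ q A = 0 := by
  unfold e1
  by_cases h1 : ‖T.starProjection (q.1 - q.2)‖ < r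
  · have h2 : r ≤ ‖co T (q.1 - q.2)‖ := by
      by_contra h3
      push Not at h3
      exact h ⟨h1, h3⟩
    rw [fderiv_gf hw hr, ca_eq_zero hw hr h2, cb_eq_zero hw hr h2, gf_eq_zero hw hr h2]
    simp [tr_zero]
  · push Not at h1
    rw [ker_eq_zero hr h1, fderiv_ker_eq_zero hr h1]
    simp

lemma e2_eq_zero (hw : 0 < w) (hr : 0 < r) {q : E × E} (h : q.1 - q.2 ∉ dom T r)
    (A A' : E →L[ℝ] E) : e2 T r w ψ q A A' = 0 := by
  unfold e2
  by_cases h1 : ‖T.starProjection (q.1 - q.2)‖ < r
  · have h2 : r ≤ ‖co T (q.1 - q.2)‖ := by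
      by_contra h3
      push Not at h3
      exact h ⟨h1, h3⟩
    rw [fderiv_gf hw hr, ca_eq_zero hw hr h2, cb_eq_zero hw hr h2, gf_eq_zero hw hr h2]
    simp [tr_zero]
  · push Not at h1
    rw [ker_eq_zero hr h1, fderiv_ker_eq_zero hr h1]
    simp

lemma dom_neg {v : E} : -v ∈ dom T r ↔ v ∈ dom T r := by simp [dom]

lemma dom_sub_comm {z z' : E} : z' - z ∈ dom T r ↔ z - z' ∈ dom T r := by
  rw [← neg_sub, dom_neg]

/-- the window kernel `K(v) 1_{|q v| ≤ w}` -/
noncomputable def win (T : Submodule ℝ E) (r w : ℝ) (v : E) : ℝ :=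
  {v : E | ‖co T v‖ ≤ w}.indicator (ker T r) v

lemma win_nonneg (v : E) : 0 ≤ win T r w v := indicator_nonneg (fun _ _ => ker_nonneg _) _

lemma win_le_one (v : E) : win T r w v ≤ 1 :=
  indicator_le_self' (fun _ _ => ker_nonneg _) _ |>.trans (ker_le_one _)

/-- the error density -/
noncomputable def err (T : Submodule ℝ E) (r w : ℝ) (ψ Lf : E → ℝ) (z : E) (A : E →L[ℝ] E) : ℝ :=
  12 * w / r * (ψ z * tilt T A) + 8 * r * (Lf z * tilt T A) +
    w * (‖fderiv ℝ ψ z‖ * √(tilt T A))

section real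

lemma real_main1 {θ x K t t' B lam S : ℝ} (hθ0 : 0 ≤ θ) (hθ1 : θ ≤ 1) (hx : 0 ≤ x) (hK : 0 ≤ K)
    (hB0 : 0 ≤ B) (hB : 1 / 2 * t - t' ≤ B) (hlam : 1 / 3 ≤ lam) (hS : lam * B ≤ S) :
    θ * (x * (K * (1 / 6 * t - 1 / 3 * t'))) ≤ x * (K * S) := by
  have h4 : 1 / 3 * B ≤ S := le_trans (by gcongr) hS
  have h5 : 0 ≤ S := le_trans (by positivity) h4
  have h6 : θ * (1 / 6 * t - 1 / 3 * t') ≤ S := by
    rcases le_or_gt 0 (1 / 6 * t - 1 / 3 * t') with h7 | h7
    · calc θ * (1 / 6 * t - 1 / 3 * t') ≤ 1 * (1 / 6 * t - 1 / 3 * t') := by gcongr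
        _ ≤ 1 / 3 * B := by linarith
        _ ≤ S := h4
    · exact (mul_nonpos_of_nonneg_of_nonpos hθ0 h7.le).trans h5
  calc θ * (x * (K * (1 / 6 * t - 1 / 3 * t')))
      = x * (K * (θ * (1 / 6 * t - 1 / 3 * t'))) := by ring
    _ ≤ x * (K * S) := by gcongr

lemma real_main2 {x K T2 B lam S δ : ℝ} (hx : 0 ≤ x) (hK : 0 ≤ K) (hK1 : K ≤ 1) (hδ : 0 ≤ δ)
    (hB0 : 0 ≤ B) (hB : B ≤ 2 * T2) (hT : 0 ≤ T2) (hlam : -(4 * δ) ≤ lam) (hS : lam * B ≤ S) :
    -(8 * (δ * (x * T2))) ≤ x * (K * S) := by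
  have h5 : -(4 * δ) * B ≤ S := le_trans (by gcongr) hS
  have h4 : -(8 * δ * T2) ≤ S := by nlinarith
  have h6 : -(8 * δ * T2) ≤ K * S := by
    have h8 : K * -(8 * δ * T2) ≤ K * S := by gcongr
    have h9 : K * (8 * δ * T2) ≤ 1 * (8 * δ * T2) := by gcongr
    linarith
  calc -(8 * (δ * (x * T2))) = x * -(8 * δ * T2) := by ring
    _ ≤ x * (K * S) := by gcongr

lemma real_sy {x x' K O' t t' l l' r : ℝ} (hK : 0 ≤ K) (hK1 : K ≤ 1) (ht : 0 ≤ t) (ht' : 0 ≤ t')
    (hO : |O'| ≤ 5 * (t + t')) (hl : |x - x'| ≤ r * l) (hl' : |x' - x| ≤ r * l') :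
    -(5 * (r * (l * t)) + 5 * (r * (l' * t'))) ≤ (x' - x) * (K * O') := by
  have h1 : |(x' - x) * (K * O')| ≤ |x' - x| * (5 * (t + t')) := by
    rw [abs_mul, abs_mul, abs_of_nonneg hK]
    have : K * |O'| ≤ 1 * (5 * (t + t')) := by gcongr
    rw [one_mul] at this
    gcongr
  have h2 : |x' - x| * t ≤ r * l * t := by
    rw [abs_sub_comm]; gcongr
  have h3 : |x' - x| * t' ≤ r * l' * t' := by gcongr
  have h4 := neg_abs_le ((x' - x) * (K * O'))
  nlinarith

lemma real_shift {x x' t l r w : ℝ} (hr : 0 < r) (hw : 0 < w) (hwr : 4 * w ≤ r) (ht : 0 ≤ t)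
    (hl0 : 0 ≤ l) (hl : |x - x'| ≤ r * l) :
    (w / r) * (x' * t) ≤ (w / r) * (x * t) + 1 / 4 * (r * (l * t)) := by
  have q2 : x' * t ≤ x * t + r * l * t := by
    have : x' ≤ x + r * l := by
      have := neg_abs_le (x - x')
      linarith
    nlinarith
  have h0 : 0 ≤ w / r := by positivity
  have h1 : (w / r) * (x' * t) ≤ (w / r) * (x * t + r * l * t) := by gcongr
  have h2 : (w / r) * (x * t + r * l * t) = (w / r) * (x * t) + w * (l * t) := by
    field_simp
  have h3 : w * (l * t) ≤ r / 4 * (l * t) := by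
    have : 0 ≤ l * t := by positivity
    gcongr
    linarith
  linarith

lemma real_collect {A X Xt Xs Y Yt Ys L L' D D' M S1 R R' : ℝ}
    (hL : 0 ≤ L) (hL' : 0 ≤ L')
    (main : A - 8 * (X + Xs) ≤ M) (sy : -(5 * L + 5 * L') ≤ S1)
    (hR : |R| ≤ D + 2 * (X + Xs)) (hR' : |R'| ≤ D' + 2 * (Y + Ys))
    (g1 : Xs ≤ Y + 1 / 4 * L') (g2 : Ys ≤ X + 1 / 4 * L) :
    A - ((12 * X + 8 * L + D) + (12 * Y + 8 * L' + D')) ≤ M + S1 + R + R' := by
  have r1 := neg_abs_le R
  have r2 := neg_abs_le R'
  linarith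

end real

section main

variable {Lf : E → ℝ} {θ : ℝ}

/-- the sign term -/
lemma main_term (hw : 0 < w) (hwr : 4 * w ≤ r) (hθ0 : 0 ≤ θ) (hθ1 : θ ≤ 1) {x : ℝ} (hx : 0 ≤ x)
    (v : E) :
    θ * (x * (win T r w v * (1 / 6 * tilt T S.starProjection -
        1 / 3 * tilt T S'.starProjection))) -
      8 * (w / r * (x * tilt T S.starProjection) + w / r * (x * tilt T S'.starProjection)) ≤
      x * (ker T r v * (one T (ca T r w v) (cb T r w v) (co T v)
          S.starProjection S'.starProjection +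
        one T (ca T r w v) (cb T r w v) (co T v) S'.starProjection S.starProjection)) := by
  have hr : 0 < r := by linarith
  have k1 := ker_nonneg (T := T) (r := r) v
  have k2 := ker_le_one (T := T) (r := r) v
  have t0 := FV.tilt_nonneg S T
  have t0' := FV.tilt_nonneg S' T
  rw [one_add_one]
  have hsym := sym_ge (a := ca T r w v) (b' := cb T r w v) T S S' (co_self T v) (cb_nonpos hw hr v)
  have hbr0 := br_nonneg T S S'
  have hbr1 := br_ge T S S'
  have hbr2 := br_le T S S'
  have hwr' : 0 ≤ w / r := by positivity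
  by_cases h1 : ‖co T v‖ ≤ w
  · have h2 : win T r w v = ker T r v := indicator_of_mem (by exact h1) _
    rw [h2]
    have := real_main1 hθ0 hθ1 hx k1 hbr0 hbr1 (lam_ge_of_le hw hwr h1) hsym
    have h7 : 0 ≤ 8 * (w / r * (x * tilt T S.starProjection) +
      w / r * (x * tilt T S'.starProjection)) := by positivity
    linarith
  · have h2 : win T r w v = 0 := indicator_of_notMem (by exact h1) _
    have h3 : -(4 * (w / r)) ≤ ca T r w v + cb T r w v * ‖co T v‖ ^ 2 := by
      have := lam_ge (T := T) hw hr v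
      have e : 4 * w / r = 4 * (w / r) := by ring
      rwa [e] at this
    have := real_main2 hx k1 k2 hwr' hbr0 hbr2 (by positivity) h3 hsym
    rw [h2]
    have e : θ * (x * (0 * (1 / 6 * tilt T S.starProjection -
        1 / 3 * tilt T S'.starProjection))) -
      8 * (w / r * (x * tilt T S.starProjection) + w / r * (x * tilt T S'.starProjection)) =
      -(8 * (w / r * (x * (tilt T S.starProjection + tilt T S'.starProjection)))) := by ring
    rw [e]
    exact this

lemma err_eq (z : E) (A : E →L[ℝ] E) : err T r w ψ Lf z A =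
    12 * (w / r * (ψ z * tilt T A)) + 8 * (r * (Lf z * tilt T A)) +
      w * (‖fderiv ℝ ψ z‖ * √(tilt T A)) := by
  unfold err; ring

lemma abs_rem_le' (hS' : Module.finrank ℝ S' = Module.finrank ℝ T) (hw : 0 < w) (hr : 0 < r)
    (hψ0 : ∀ y, 0 ≤ ψ y) (q : E × E) :
    |rem T r w ψ q S.starProjection S'.starProjection| ≤
      w * (‖fderiv ℝ ψ q.1‖ * √(tilt T S.starProjection)) +
        2 * (w / r * (ψ q.1 * tilt T S.starProjection) +
          w / r * (ψ q.1 * tilt T S'.starProjection)) := by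
  refine (abs_rem_le hS' hw hr hψ0 q).trans (le_of_eq ?_)
  ring

lemma win_eq_zero (hw : 0 < w) (hwr : 4 * w ≤ r) {v : E} (h : v ∉ dom T r) : win T r w v = 0 := by
  unfold win
  by_cases h1 : ‖co T v‖ ≤ w
  · rw [indicator_of_mem (by exact h1)]
    refine ker_eq_zero (by linarith) ?_
    by_contra h2
    push Not at h2
    exact h ⟨h2, by linarith⟩
  · rw [indicator_of_notMem (by exact h1)]

/-- the two-point integrand, symmetrised -/
lemma sum_eq (hw : 0 < w) (hr : 0 < r) (z z' : E) :
    (e1 T r w ψ (z, z') S.starProjection -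
        e2 T r w ψ (z, z') S.starProjection S'.starProjection) +
      (e1 T r w ψ (z', z) S'.starProjection -
        e2 T r w ψ (z', z) S'.starProjection S.starProjection) =
    ψ z * (ker T r (z - z') * (one T (ca T r w (z - z')) (cb T r w (z - z')) (co T (z - z'))
          S.starProjection S'.starProjection +
        one T (ca T r w (z - z')) (cb T r w (z - z')) (co T (z - z'))
          S'.starProjection S.starProjection)) +
      (ψ z' - ψ z) * (ker T r (z - z') * one T (ca T r w (z - z')) (cb T r w (z - z'))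
        (co T (z - z')) S'.starProjection S.starProjection) +
      rem T r w ψ (z, z') S.starProjection S'.starProjection +
      rem T r w ψ (z', z) S'.starProjection S.starProjection := by
  have hv' : z' - z = -(z - z') := by abel
  rw [e1_sub_e2 hw hr, e1_sub_e2 hw hr]
  simp only
  rw [hv', ker_neg, ca_neg, cb_neg, map_neg, one_neg]
  ring

/-- **The pointwise inequality.** -/
lemma point (hS : Module.finrank ℝ S = Module.finrank ℝ T)
    (hS' : Module.finrank ℝ S' = Module.finrank ℝ T) (hw : 0 < w) (hwr : 4 * w ≤ r)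
    (hψ0 : ∀ y, 0 ≤ ψ y) (hL0 : ∀ z, 0 ≤ Lf z)
    (hL : ∀ z z', ‖T.starProjection (z - z')‖ < r → |ψ z - ψ z'| ≤ r * Lf z)
    (hθ0 : 0 ≤ θ) (hθ1 : θ ≤ 1) (z z' : E) :
    θ * (ψ z * (win T r w (z - z') * (1 / 6 * tilt T S.starProjection -
        1 / 3 * tilt T S'.starProjection))) -
      (dom T r).indicator (fun _ => err T r w ψ Lf z S.starProjection +
        err T r w ψ Lf z' S'.starProjection) (z - z') ≤
      (e1 T r w ψ (z, z') S.starProjection -
        e2 T r w ψ (z, z') S.starProjection S'.starProjection) +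
      (e1 T r w ψ (z', z) S'.starProjection -
        e2 T r w ψ (z', z) S'.starProjection S.starProjection) := by
  have hr : 0 < r := by linarith
  by_cases hD : z - z' ∈ dom T r
  swap
  · have hD' : z' - z ∉ dom T r := fun h => hD (dom_sub_comm.1 h)
    rw [indicator_of_notMem hD, win_eq_zero hw hwr hD,
      ker_mul_eq_zero (q := (z, z')) hw hr hD, e2_eq_zero (q := (z, z')) hw hr hD,
      ker_mul_eq_zero (q := (z', z)) hw hr hD', e2_eq_zero (q := (z', z)) hw hr hD']
    simp
  rw [indicator_of_mem hD, sum_eq hw hr]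
  have hl := hL z z' hD.1
  have hl' := hL z' z ((dom_sub_comm (T := T) (r := r)).2 hD).1
  have k1 := ker_nonneg (T := T) (r := r) (z - z')
  have k2 := ker_le_one (T := T) (r := r) (z - z')
  have t0 := FV.tilt_nonneg S T
  have t0' := FV.tilt_nonneg S' T
  have hO'le := abs_one_le (a := ca T r w (z - z')) (b' := cb T r w (z - z')) T S S'
    (co_self T (z - z')) (ca_nonneg hw (z - z')) (ca_le_one hw (z - z'))
    (abs_cb_mul_le hw hwr (z - z'))
  rw [err_eq, err_eq]
  refine real_collect (Xt := 0) (Yt := 0) ?_ ?_ (main_term hw hwr hθ0 hθ1 (hψ0 z) (z - z'))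
    (real_sy k1 k2 t0 t0' hO'le hl hl') (abs_rem_le' hS' hw hr hψ0 (z, z'))
    (abs_rem_le' hS hw hr hψ0 (z', z)) (real_shift hr hw hwr t0' (hL0 z') hl')
    (real_shift hr hw hwr t0 (hL0 z) hl)
  · have := hL0 z
    positivity
  · have := hL0 z'
    positivity

end main

end Vale.Agent.P214.TP
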