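import Vale.Agent.P214.TP.Ker

/-!
# P214, block TP, part 2: linear algebra of two planes

`P = S.starProjection`, `P' = S'.starProjection`, `p = T.starProjection`, `q = co T`.
-/

open Set Filter Topology MeasureTheory Metric
open scoped RealInnerProductSpace

set_option linter.all false

namespace Vale.Agent.P214.TP

open Vale.Agent.P214.FV

variable {E : Type*} [NormedAddCommGroup E] [InnerProductSpace ℝ E] [FiniteDimensional ℝ E]

/-- the mixed trace `tr (q P' p P)` -/
noncomputable def tq (T : Submodule ℝ E) (P P' : E →L[ℝ] E) : ℝ :=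
  tilt T (P'.comp (T.starProjection.comp P))

/-- `|P u|² + |P' u|² - 2 ⟪P' u, p P u⟫` -/
noncomputable def dd (T : Submodule ℝ E) (P P' : E →L[ℝ] E) (u : E) : ℝ :=
  ‖P u‖ ^ 2 + ‖P' u‖ ^ 2 - 2 * ⟪P' u, T.starProjection (P u)⟫

/-- the operator `a q + b c ⊗ c` -/
noncomputable def Hop (T : Submodule ℝ E) (a b : ℝ) (c : E) : E →L[ℝ] E :=
  a • co T + b • (innerSL ℝ c).smulRight c

lemma smulRight_comp' (f : E →L[ℝ] ℝ) (v : E) (B : E →L[ℝ] E) :
    (f.smulRight v).comp B = (f.comp B).smulRight v := by
  ext w
  simp

lemma tr_Hop_comp (T : Submodule ℝ E) (a b : ℝ) (c : E) (B : E →L[ℝ] E) :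
    tr ((Hop T a b c).comp B) = a * tilt T B + b * ⟪c, B c⟫ := by
  unfold Hop
  rw [ContinuousLinearMap.add_comp, tr_add, ContinuousLinearMap.smul_comp, tr_smul,
    ContinuousLinearMap.smul_comp, tr_smul, smulRight_comp', tr_smulRight]
  rfl

lemma tilt_eq_sum (T : Submodule ℝ E) (B : E →L[ℝ] E) :
    tilt T B = ∑ k, ⟪co T (stdOrthonormalBasis ℝ E k), B (co T (stdOrthonormalBasis ℝ E k))⟫ := by
  have h1 : tilt T B = tr ((co T).comp (B.comp (co T))) := by
    rw [tr_comp_comm (co T), ContinuousLinearMap.comp_assoc]
    have : (co T).comp (co T) = co T := by ext v; exact co_self T v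
    rw [this]
    exact tr_comp_comm _ _
  rw [h1, tr_eq_sum (stdOrthonormalBasis ℝ E)]
  refine Finset.sum_congr rfl fun k _ => ?_
  simp only [ContinuousLinearMap.comp_apply]
  rw [inner_co]

variable (T S S' : Submodule ℝ E)

lemma tilt_eq_sum_sq : tilt T S.starProjection =
    ∑ k, ‖S.starProjection (co T (stdOrthonormalBasis ℝ E k))‖ ^ 2 := by
  rw [tilt_eq_sum]
  exact Finset.sum_congr rfl fun k _ => inner_star_self S _

lemma tq_eq_sum : tq T S.starProjection S'.starProjection =
    ∑ k, ⟪S'.starProjection (co T (stdOrthonormalBasis ℝ E k)),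
      T.starProjection (S.starProjection (co T (stdOrthonormalBasis ℝ E k)))⟫ := by
  rw [tq, tilt_eq_sum]
  refine Finset.sum_congr rfl fun k _ => ?_
  simp only [ContinuousLinearMap.comp_apply]
  rw [inner_star S']

lemma inner_swap (u : E) : ⟪S'.starProjection u, T.starProjection (S.starProjection u)⟫ =
    ⟪S.starProjection u, T.starProjection (S'.starProjection u)⟫ := by
  rw [real_inner_comm, inner_star T]

lemma tq_swap : tq T S.starProjection S'.starProjection =
    tq T S'.starProjection S.starProjection := by
  rw [tq_eq_sum, tq_eq_sum]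
  exact Finset.sum_congr rfl fun k _ => inner_swap T S S' _

lemma dd_swap (u : E) : dd T S.starProjection S'.starProjection u =
    dd T S'.starProjection S.starProjection u := by
  unfold dd
  rw [inner_swap]
  ring

/-- sum of squares -/
lemma dd_eq (u : E) : dd T S.starProjection S'.starProjection u =
    ‖T.starProjection (S.starProjection u) - T.starProjection (S'.starProjection u)‖ ^ 2 +
      ‖co T (S.starProjection u)‖ ^ 2 + ‖co T (S'.starProjection u)‖ ^ 2 := by
  unfold dd
  rw [norm_sub_sq_real, norm_sq_star_add_co T (S.starProjection u),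
    norm_sq_star_add_co T (S'.starProjection u)]
  have h1 : ⟪S'.starProjection u, T.starProjection (S.starProjection u)⟫ =
      ⟪T.starProjection (S.starProjection u), T.starProjection (S'.starProjection u)⟫ := by
    rw [← star_self T (S.starProjection u), ← inner_star T, star_self, real_inner_comm]
  rw [h1]
  ring

lemma dd_nonneg (u : E) : 0 ≤ dd T S.starProjection S'.starProjection u := by
  rw [dd_eq]; positivity

lemma abs_inner_le (u : E) : |⟪S'.starProjection u, T.starProjection (S.starProjection u)⟫| ≤
    ‖S.starProjection u‖ * ‖S'.starProjection u‖ := by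
  refine (abs_real_inner_le_norm _ _).trans ?_
  rw [mul_comm]
  gcongr
  exact norm_star_le T _

lemma dd_ge (u : E) : 1 / 2 * ‖S.starProjection u‖ ^ 2 - ‖S'.starProjection u‖ ^ 2 ≤
    dd T S.starProjection S'.starProjection u := by
  have h1 := abs_inner_le T S S' u
  have h2 := le_abs_self ⟪S'.starProjection u, T.starProjection (S.starProjection u)⟫
  unfold dd
  nlinarith [sq_nonneg (‖S.starProjection u‖ - 2 * ‖S'.starProjection u‖)]

lemma dd_le (u : E) : dd T S.starProjection S'.starProjection u ≤
    2 * (‖S.starProjection u‖ ^ 2 + ‖S'.starProjection u‖ ^ 2) := by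
  have h1 := abs_inner_le T S S' u
  have h2 := neg_abs_le ⟪S'.starProjection u, T.starProjection (S.starProjection u)⟫
  unfold dd
  nlinarith [sq_nonneg (‖S.starProjection u‖ - ‖S'.starProjection u‖)]

/-- the bracket `tilt + tilt' - 2 tq` -/
noncomputable def br (T : Submodule ℝ E) (P P' : E →L[ℝ] E) : ℝ :=
  tilt T P + tilt T P' - 2 * tq T P P'

lemma br_eq_sum : br T S.starProjection S'.starProjection =
    ∑ k, dd T S.starProjection S'.starProjection (co T (stdOrthonormalBasis ℝ E k)) := by
  unfold br dd
  rw [tilt_eq_sum_sq, tilt_eq_sum_sq, tq_eq_sum, Finset.sum_sub_distrib, Finset.sum_add_distrib,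
    ← Finset.mul_sum]

lemma br_nonneg : 0 ≤ br T S.starProjection S'.starProjection := by
  rw [br_eq_sum]
  exact Finset.sum_nonneg fun k _ => dd_nonneg T S S' _

lemma br_ge : 1 / 2 * tilt T S.starProjection - tilt T S'.starProjection ≤
    br T S.starProjection S'.starProjection := by
  rw [br_eq_sum, tilt_eq_sum_sq, tilt_eq_sum_sq, Finset.mul_sum, ← Finset.sum_sub_distrib]
  exact Finset.sum_le_sum fun k _ => dd_ge T S S' _

lemma br_le : br T S.starProjection S'.starProjection ≤
    2 * (tilt T S.starProjection + tilt T S'.starProjection) := by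
  rw [br_eq_sum, tilt_eq_sum_sq, tilt_eq_sum_sq, ← Finset.sum_add_distrib, Finset.mul_sum]
  exact Finset.sum_le_sum fun k _ => dd_le T S S' _

lemma abs_tq_le : |tq T S.starProjection S'.starProjection| ≤
    1 / 2 * (tilt T S.starProjection + tilt T S'.starProjection) := by
  have h1 := br_nonneg T S S'
  have h2 : -(tilt T S.starProjection + tilt T S'.starProjection) ≤
      2 * tq T S.starProjection S'.starProjection := by
    rw [tilt_eq_sum_sq, tilt_eq_sum_sq, tq_eq_sum, ← Finset.sum_add_distrib, Finset.mul_sum,
      ← Finset.sum_neg_distrib]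
    refine Finset.sum_le_sum fun k _ => ?_
    have h1 := abs_inner_le T S S' (co T (stdOrthonormalBasis ℝ E k))
    have h2 := neg_abs_le ⟪S'.starProjection (co T (stdOrthonormalBasis ℝ E k)),
      T.starProjection (S.starProjection (co T (stdOrthonormalBasis ℝ E k)))⟫
    nlinarith [sq_nonneg (‖S.starProjection (co T (stdOrthonormalBasis ℝ E k))‖ -
      ‖S'.starProjection (co T (stdOrthonormalBasis ℝ E k))‖)]
  unfold br at h1
  rw [abs_le]
  constructor <;> linarith

/-- a positive form is bounded by its trace -/
lemma dd_le_br {c : E} (hc : co T c = c) : dd T S.starProjection S'.starProjection c ≤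
    ‖c‖ ^ 2 * br T S.starProjection S'.starProjection := by
  have key : ∀ A : E →L[ℝ] E, ‖A c‖ ^ 2 ≤ ‖c‖ ^ 2 * ∑ k, ‖A (co T (stdOrthonormalBasis ℝ E k))‖ ^ 2 := by
    intro A
    have h1 := norm_sq_le_hs (A.comp (co T)) c
    simp only [ContinuousLinearMap.comp_apply, hc] at h1
    rw [mul_comm]
    exact h1
  have h1 := key (T.starProjection.comp (S.starProjection - S'.starProjection))
  have h2 := key ((co T).comp S.starProjection)
  have h3 := key ((co T).comp S'.starProjection)
  simp only [ContinuousLinearMap.comp_apply, ContinuousLinearMap.sub_apply, map_sub] at h1 h2 h3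
  rw [br_eq_sum]
  simp only [dd_eq]
  rw [Finset.sum_add_distrib, Finset.sum_add_distrib, mul_add, mul_add]
  linarith

/-- the symmetrised integrand `tr (H (P + P' - P' p P - P p P'))` -/
noncomputable def sym (T : Submodule ℝ E) (a b' : ℝ) (c : E) (P P' : E →L[ℝ] E) : ℝ :=
  a * br T P P' + b' * dd T P P' c

lemma sym_ge {a b' : ℝ} {c : E} (hc : co T c = c) (hb : b' ≤ 0) :
    (a + b' * ‖c‖ ^ 2) * br T S.starProjection S'.starProjection ≤
      sym T a b' c S.starProjection S'.starProjection := by
  have h1 := dd_le_br T S S' hc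
  unfold sym
  nlinarith [mul_le_mul_of_nonpos_left h1 hb]

/-- the one sided integrand `tr (H P) - tr (p P H P')` -/
noncomputable def one (T : Submodule ℝ E) (a b' : ℝ) (c : E) (P P' : E →L[ℝ] E) : ℝ :=
  a * (tilt T P - tq T P P') + b' * (⟪c, P c⟫ - ⟪P' c, T.starProjection (P c)⟫)

lemma one_add_one (a b' : ℝ) (c : E) :
    one T a b' c S.starProjection S'.starProjection +
      one T a b' c S'.starProjection S.starProjection =
      sym T a b' c S.starProjection S'.starProjection := by
  unfold one sym br dd
  rw [tq_swap T S' S, inner_star_self, inner_star_self, ← inner_swap T S S' c]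
  ring

lemma one_eq (a b' : ℝ) (c : E) :
    tr ((Hop T a b' c).comp S.starProjection) -
      tr ((T.starProjection.comp (S.starProjection.comp (Hop T a b' c))).comp S'.starProjection) =
      one T a b' c S.starProjection S'.starProjection := by
  have h1 : tr ((T.starProjection.comp (S.starProjection.comp (Hop T a b' c))).comp
      S'.starProjection) =
      tr ((Hop T a b' c).comp (S'.starProjection.comp (T.starProjection.comp S.starProjection))) := by
    rw [← ContinuousLinearMap.comp_assoc, ContinuousLinearMap.comp_assoc, tr_comp_comm,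
      ContinuousLinearMap.comp_assoc]
  rw [h1, tr_Hop_comp, tr_Hop_comp]
  unfold one tq
  simp only [ContinuousLinearMap.comp_apply]
  rw [inner_star S']
  ring

lemma abs_one_le {a b' : ℝ} {c : E} (hc : co T c = c) (ha : 0 ≤ a) (ha1 : a ≤ 1)
    (hb : |b'| * ‖c‖ ^ 2 ≤ 2) :
    |one T a b' c S'.starProjection S.starProjection| ≤
      5 * (tilt T S.starProjection + tilt T S'.starProjection) := by
  have h0 := FV.tilt_nonneg S T
  have h0' := FV.tilt_nonneg S' T
  have h1 := abs_tq_le T S' S
  have hcT : c ∈ Tᗮ := by
    rw [← hc, co_eq]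
    exact Submodule.starProjection_apply_mem _ _
  have h2 : ‖S.starProjection c‖ ^ 2 ≤ tilt T S.starProjection * ‖c‖ ^ 2 :=
    norm_sq_star_le_of_mem hcT
  have h3 : ‖S'.starProjection c‖ ^ 2 ≤ tilt T S'.starProjection * ‖c‖ ^ 2 :=
    norm_sq_star_le_of_mem hcT
  have h4 := abs_inner_le T S' S c
  have h5 : |⟪S.starProjection c, T.starProjection (S'.starProjection c)⟫| ≤
      1 / 2 * (tilt T S.starProjection + tilt T S'.starProjection) * ‖c‖ ^ 2 := by
    nlinarith [sq_nonneg (‖S.starProjection c‖ - ‖S'.starProjection c‖)]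
  unfold one
  rw [inner_star_self]
  calc |a * (tilt T S'.starProjection - tq T S'.starProjection S.starProjection) +
        b' * (‖S'.starProjection c‖ ^ 2 - ⟪S.starProjection c, T.starProjection (S'.starProjection c)⟫)|
      ≤ |a| * (|tilt T S'.starProjection| + |tq T S'.starProjection S.starProjection|) +
        |b'| * (|‖S'.starProjection c‖ ^ 2| +
          |⟪S.starProjection c, T.starProjection (S'.starProjection c)⟫|) := by
        refine (abs_add_le _ _).trans ?_
        rw [abs_mul, abs_mul]
        gcongr
        · exact abs_sub _ _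
        · exact abs_sub _ _
    _ ≤ 1 * (tilt T S'.starProjection +
          1 / 2 * (tilt T S'.starProjection + tilt T S.starProjection)) +
        |b'| * (tilt T S'.starProjection * ‖c‖ ^ 2 +
          1 / 2 * (tilt T S.starProjection + tilt T S'.starProjection) * ‖c‖ ^ 2) := by
        rw [abs_of_nonneg ha, abs_of_nonneg h0', abs_of_nonneg (sq_nonneg ‖S'.starProjection c‖)]
        gcongr
    _ = (tilt T S'.starProjection +
          1 / 2 * (tilt T S'.starProjection + tilt T S.starProjection)) +
        (|b'| * ‖c‖ ^ 2) * (tilt T S'.starProjection +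
          1 / 2 * (tilt T S.starProjection + tilt T S'.starProjection)) := by ring
    _ ≤ (tilt T S'.starProjection +
          1 / 2 * (tilt T S'.starProjection + tilt T S.starProjection)) +
        2 * (tilt T S'.starProjection +
          1 / 2 * (tilt T S.starProjection + tilt T S'.starProjection)) := by gcongr
    _ ≤ 5 * (tilt T S.starProjection + tilt T S'.starProjection) := by linarith

end Vale.Agent.P214.TP
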